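import Vale.Agent.P249.Interp

/-! The commutator estimate. -/

open Finset

namespace Vale.Agent.P249

lemma three {Ψ : ℂ → ℂ} (hd : Differentiable ℂ Ψ) {l u a b : ℝ} (hl : l < 0) (hu : 0 < u)
    (hB : Bdd l u Ψ) (ha : ∀ z : ℂ, z.re = l → ‖Ψ z‖ ≤ a) (hb : ∀ z : ℂ, z.re = u → ‖Ψ z‖ ≤ b) :
    ‖Ψ 0‖ ≤ a ^ (1 - -l / (u - l)) * b ^ (-l / (u - l)) := by
  obtain ⟨C, hC⟩ := hB
  have := Complex.HadamardThreeLines.norm_le_interp_of_mem_verticalClosedStrip' (f := Ψ) (z := 0)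
    (hl.trans hu) ⟨by simpa using hl.le, by simpa using hu.le⟩ hd.diffContOnCl
    ⟨C, by rintro _ ⟨z, hz, rfl⟩; exact hC z hz⟩ ha hb
  simpa using this

noncomputable def tst (p c : ℝ) (z : ℂ) : ℂ :=
  ((c / |c| : ℝ) : ℂ) * Complex.exp ((((1 - p : ℝ) : ℂ) + z) * ((-Real.log |c| : ℝ) : ℂ))

lemma tst_norm (p c : ℝ) (z : ℂ) : ‖tst p c z‖ = if c = 0 then 0 else |c| ^ (p - 1 - z.re) := by
  split_ifs with hc
  · simp [tst, hc]
  · have h0 : 0 < |c| := abs_pos.2 hc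
    rw [tst, norm_mul, Complex.norm_real, Complex.norm_exp, Real.norm_eq_abs, abs_div, abs_abs,
      div_self h0.ne', one_mul, Real.rpow_def_of_pos h0]
    congr 1
    simp only [Complex.mul_re, Complex.add_re, Complex.ofReal_re, Complex.add_im,
      Complex.ofReal_im, mul_zero, sub_zero]
    ring

lemma tst_zero {p : ℝ} (hp : 0 < p) (c : ℝ) : (c : ℂ) * tst p c 0 = ((|c| ^ p : ℝ) : ℂ) := by
  rcases eq_or_ne c 0 with hc | hc
  · simp [hc, Real.zero_rpow hp.ne']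
  · have h0 : 0 < |c| := abs_pos.2 hc
    rw [tst, add_zero, ← Complex.ofReal_mul, ← Complex.ofReal_exp, ← Complex.ofReal_mul,
      ← Complex.ofReal_mul, ← mul_assoc, ← mul_div_assoc, ← abs_mul_abs_self, mul_div_assoc,
      div_self h0.ne', mul_one, Real.rpow_def_of_pos h0]
    congr 1
    nth_rewrite 1 [← Real.exp_log h0]
    rw [← Real.exp_add]
    congr 1
    ring

lemma nrm_nonneg {ι : Type*} [Fintype ι] {μ : ι → ℝ} (hμ : ∀ i, 0 ≤ μ i) (p : ℝ) (f : ι → ℝ) :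
    0 ≤ nrm μ p f :=
  Real.rpow_nonneg (Finset.sum_nonneg fun i _ => mul_nonneg (hμ i) (by positivity)) _

lemma nrm_rpow {ι : Type*} [Fintype ι] {μ : ι → ℝ} (hμ : ∀ i, 0 ≤ μ i) {p : ℝ} (hp : 0 < p)
    (f : ι → ℝ) : nrm μ p f ^ p = ∑ i, μ i * |f i| ^ p := by
  rw [nrm, one_div, Real.rpow_inv_rpow
    (Finset.sum_nonneg fun i _ => mul_nonneg (hμ i) (by positivity)) hp.ne']

lemma nrm_unit {ι : Type*} [Fintype ι] {μ : ι → ℝ} (hμ : ∀ i, 0 ≤ μ i) {p : ℝ} (hp : 0 < p)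
    (f : ι → ℝ) : ∑ i, μ i * |f i / nrm μ p f| ^ p ≤ 1 ∧
      ∑ i, (μ i : ℂ) * (f i * tst p (f i / nrm μ p f) 0) = nrm μ p f := by
  rcases (nrm_nonneg hμ p f).eq_or_lt with h | h
  · simp [← h, Real.zero_rpow hp.ne', tst]
  · have key : ∑ i, μ i * |f i / nrm μ p f| ^ p = 1 := by
      simp only [abs_div, abs_of_pos h, Real.div_rpow (abs_nonneg _) h.le, ← mul_div_assoc,
        ← Finset.sum_div, ← nrm_rpow hμ hp]
      exact div_self (Real.rpow_pos_of_pos h p).ne'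
    refine ⟨key.le, ?_⟩
    have : ∀ i, (μ i : ℂ) * (f i * tst p (f i / nrm μ p f) 0)
        = (nrm μ p f : ℂ) * ((μ i * |f i / nrm μ p f| ^ p : ℝ) : ℂ) := fun i => by
      rw [Complex.ofReal_mul, ← tst_zero hp]
      have : (nrm μ p f : ℂ) ≠ 0 := by exact_mod_cast h.ne'
      push_cast
      field_simp
    simp only [this]
    rw [← Finset.mul_sum, ← Complex.ofReal_sum, key]
    simp

section
variable {E Ω S : Type} [Fintype E] [Fintype Ω] [Fintype S]

noncomputable def err (M : E → E → ℝ) (u : E → Ω → ℝ) (t : E → Ω → ℕ) (β : S → ℕ → ℝ) (Λ : ℕ)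
    (e : E) (i : Ω × S) : ℝ := ∑ y ∈ range Λ, β i.2 y * cut M u t y e i.1

noncomputable def GG (x : ℝ) : ℝ := (1 - Real.exp (-|x|))⁻¹

lemma GG_pos {x : ℝ} (hx : x ≠ 0) : 0 < GG x :=
  inv_pos.2 (sub_pos.2 (Real.exp_lt_one_iff.2 (by simpa using hx)))

variable {p N J : ℝ} {w : E → ℝ} {π : Ω → ℝ} {M : E → E → ℝ} {u : E → Ω → ℝ}
  {t : E → Ω → ℕ} {β : S → ℕ → ℝ}

lemma Dat.fam (h : Dat p N J w π M u t β) (hp : 1 < p) (hp2 : p ≠ 2) (hJ : 0 < J) (Λ : ℕ) :
    ∃ Ψ : ℂ → ℂ, Differentiable ℂ Ψ ∧ (∀ l r, Bdd l r Ψ) ∧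
      Ψ 0 = (∑ e, w e * nrm (fun i : Ω × S => π i.1) p (err M u t β Λ e) : ℝ) ∧
      (∀ z : ℂ, z.re = p / 2 - 1 →
        ‖Ψ z‖ ≤ 3 * Real.exp |p / 2 - 1| * GG (p / 2 - 1) * J ^ (-(1 / 2) : ℝ)) ∧
      (∀ z : ℂ, z.re = p - 1 → ‖Ψ z‖ ≤ (N + 1) * (8 * Real.exp |p - 1| * GG (p - 1))) ∧
      (∀ z : ℂ, z.re = -1 → ‖Ψ z‖ ≤ (N + 1) * (Real.exp 1 * GG (-1) / J)) := by
  have hp0 : 0 < p := by linarith
  have hμ : ∀ i : Ω × S, 0 ≤ π i.1 := fun i => h.hπ i.1
  set c : E → Ω × S → ℝ := fun e i =>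
    err M u t β Λ e i / nrm (fun i : Ω × S => π i.1) p (err M u t β Λ e) with hc
  have hc1 : ∀ e, ∑ i : Ω × S, π i.1 * |c e i| ^ p ≤ 1 := fun e => (nrm_unit hμ hp0 _).1
  have hm : ∀ e ω, (0 : ℝ) < max |u e ω| 1 := fun e ω => lt_max_of_lt_right one_pos
  refine ⟨fun z => ∑ e, ∑ i : Ω × S, (w e : ℂ) * ((π i.1 : ℂ) * ((∑ y ∈ range Λ, (β i.2 y : ℂ)
    * Complex.exp ((((0 : ℝ) : ℂ) + z) * (y : ℝ)) * (cut M u t y e i.1 : ℝ)) * tst p (c e i) z)),
    by unfold tst; fun_prop, fun l r => ?_, ?_, fun z hz => ?_, fun z hz => ?_, fun z hz => ?_⟩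
  · exact Bdd.sum _ fun e => Bdd.sum _ fun i => (Bdd.const _).mul ((Bdd.const _).mul
      ((Bdd.sum _ fun y => ((Bdd.const _).mul (Bdd.exp _ _)).mul (Bdd.const _)).mul
        ((Bdd.const _).mul (Bdd.exp _ _))))
  · rw [Complex.ofReal_sum]
    refine Finset.sum_congr rfl fun e _ => ?_
    rw [← Finset.mul_sum, Complex.ofReal_mul, ← (nrm_unit hμ hp0 (err M u t β Λ e)).2]
    simp [err, hc]
  · have hx : z.re ≠ 0 := by rw [hz]; intro h; apply hp2; linarith
    obtain ⟨V, γ, a1, a2, a3, a4, a5⟩ := h.line hJ Λ z hx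
    simp only [a1]
    have hG := GG_pos hx
    rw [← hz]
    change ∀ e i, γ e i ≤ GG z.re / J at a4
    change ∀ e ω, ∑ s, γ e (ω, s) ≤ 4 * GG z.re at a5
    refine pairing_two h.hw h.hw1 hμ h.two V (fun e i => tst p (c e i) z) (by positivity)
      (fun e => ?_) fun e => le_trans (Finset.sum_le_sum fun i _ => ?_) (hc1 e)
    · have b1 : ∀ i : Ω × S, π i.1 * ‖V e i‖ ^ 2 ≤ Real.exp |z.re| ^ 2 * (GG z.re / J)
          * ((π i.1 * (max |u e i.1| 1) ^ p) * γ e i) := fun i => by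
        have b2 := pow_le_pow_left₀ (norm_nonneg _) (a2 e i) 2
        have b3 : ((max |u e i.1| 1) ^ (1 + z.re)) ^ 2 = (max |u e i.1| 1) ^ p := by
          rw [← Real.rpow_natCast, ← Real.rpow_mul (hm e i.1).le, hz]
          congr 1; push_cast; ring
        rw [mul_pow, mul_pow, b3] at b2
        have b4 : 0 ≤ (max |u e i.1| 1) ^ p := (Real.rpow_pos_of_pos (hm e i.1) p).le
        have b5 : γ e i ^ 2 ≤ GG z.re / J * γ e i := by
          rw [sq]; exact mul_le_mul_of_nonneg_right (a4 e i) (a3 e i)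
        have b6 := b2.trans (mul_le_mul_of_nonneg_left b5 (by positivity))
        have := mul_le_mul_of_nonneg_left b6 (hμ i)
        linarith
      refine (Finset.sum_le_sum fun i _ => b1 i).trans ?_
      rw [← Finset.mul_sum, Fintype.sum_prod_type]
      simp only [← Finset.mul_sum]
      have b7 : ∑ ω, π ω * (max |u e ω| 1) ^ p * ∑ s, γ e (ω, s) ≤ 2 * (4 * GG z.re) := by
        refine (Finset.sum_le_sum fun ω _ => mul_le_mul_of_nonneg_left (a5 e ω)
          (mul_nonneg (h.hπ ω) (Real.rpow_pos_of_pos (hm e ω) p).le)).trans ?_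
        rw [← Finset.sum_mul]
        exact mul_le_mul_of_nonneg_right (h.mom2 e) (by positivity)
      refine (mul_le_mul_of_nonneg_left b7 (by positivity)).trans ?_
      have b8 : (J ^ (-(1 / 2) : ℝ)) ^ 2 = J⁻¹ := by
        rw [← Real.rpow_natCast, ← Real.rpow_mul hJ.le, ← Real.rpow_neg_one]
        norm_num
      rw [mul_pow, mul_pow, mul_pow, b8, div_eq_mul_inv]
      have : 0 ≤ Real.exp |z.re| ^ 2 * GG z.re ^ 2 * J⁻¹ := by positivity
      nlinarith
    · refine mul_le_mul_of_nonneg_left ?_ (hμ i)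
      rw [tst_norm]
      split_ifs with h0
      · simp [h0, Real.zero_rpow hp0.ne']
      · rw [← Real.rpow_natCast, ← Real.rpow_mul (abs_nonneg _), hz]
        refine le_of_eq ?_
        congr 1; push_cast; ring
  · have hx : z.re ≠ 0 := by rw [hz]; intro h; linarith
    obtain ⟨V, γ, a1, a2, a3, a4, a5⟩ := h.line hJ Λ z hx
    simp only [a1]
    have hG := GG_pos hx
    rw [← hz]
    change ∀ e ω, ∑ s, γ e (ω, s) ≤ 4 * GG z.re at a5
    refine pairing_one h.hw h.hw1 hμ h.one V (fun e i => tst p (c e i) z) (by positivity)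
      fun e e' => ?_
    have b1 : ∀ i : Ω × S, π i.1 * (‖V e' i‖ * ‖tst p (c e i) z‖) ≤ Real.exp |z.re|
        * ((π i.1 * (max |u e' i.1| 1) ^ p) * γ e' i) := fun i => by
      have b2 : ‖tst p (c e i) z‖ ≤ 1 := by
        rw [tst_norm]
        split_ifs with h0
        · exact zero_le_one
        · rw [hz, sub_self, Real.rpow_zero]
      have b3 := a2 e' i
      rw [show 1 + z.re = p by rw [hz]; ring] at b3
      have := mul_le_mul_of_nonneg_left ((mul_le_of_le_one_right (norm_nonneg _) b2).trans b3) (hμ i)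
      linarith
    refine (Finset.sum_le_sum fun i _ => b1 i).trans ?_
    rw [← Finset.mul_sum, Fintype.sum_prod_type]
    simp only [← Finset.mul_sum]
    have b7 : ∑ ω, π ω * (max |u e' ω| 1) ^ p * ∑ s, γ e' (ω, s) ≤ 2 * (4 * GG z.re) := by
      refine (Finset.sum_le_sum fun ω _ => mul_le_mul_of_nonneg_left (a5 e' ω)
        (mul_nonneg (h.hπ ω) (Real.rpow_pos_of_pos (hm e' ω) p).le)).trans ?_
      rw [← Finset.sum_mul]
      exact mul_le_mul_of_nonneg_right (h.mom2 e') (by positivity)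
    refine (mul_le_mul_of_nonneg_left b7 (by positivity)).trans (le_of_eq (by ring))
  · have hx : z.re ≠ 0 := by rw [hz]; norm_num
    obtain ⟨V, γ, a1, a2, a3, a4, a5⟩ := h.line hJ Λ z hx
    simp only [a1]
    have hG := GG_pos hx
    change ∀ e i, γ e i ≤ GG z.re / J at a4
    rw [hz] at hG a4 a2
    refine pairing_one h.hw h.hw1 hμ h.one V (fun e i => tst p (c e i) z) (by positivity)
      fun e e' => ?_
    have b1 : ∀ i : Ω × S, π i.1 * (‖V e' i‖ * ‖tst p (c e i) z‖)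
        ≤ Real.exp 1 * GG (-1) / J * (π i.1 * |c e i| ^ p) := fun i => by
      have b2 : ‖tst p (c e i) z‖ ≤ |c e i| ^ p := by
        rw [tst_norm]
        split_ifs with h0
        · positivity
        · rw [hz]; simp
      have b3 : ‖V e' i‖ ≤ Real.exp 1 * GG (-1) / J := by
        have := a2 e' i
        simp only [abs_neg, abs_one, add_neg_cancel, Real.rpow_zero, mul_one] at this
        rw [mul_div_assoc]
        exact this.trans (mul_le_mul_of_nonneg_left (a4 e' i) (by positivity))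
      have := mul_le_mul_of_nonneg_left (mul_le_mul b3 b2 (norm_nonneg _) (by positivity)) (hμ i)
      linarith
    refine (Finset.sum_le_sum fun i _ => b1 i).trans ?_
    rw [← Finset.mul_sum]
    exact mul_le_of_le_one_right (by positivity) (hc1 e)

end

theorem commutator {p : ℝ} (hp : 1 < p) (hp2 : p ≠ 2) : ∃ K > 0, ∀ (E Ω S : Type) [Fintype E]
    [Fintype Ω] [Fintype S] (N J : ℝ) (w : E → ℝ) (π : Ω → ℝ) (M : E → E → ℝ) (u : E → Ω → ℝ)
    (t : E → Ω → ℕ) (β : S → ℕ → ℝ) (Λ : ℕ), Dat p N J w π M u t β → 0 < J → 0 ≤ N →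
    ∑ e, w e * nrm (fun i : Ω × S => π i.1) p (err M u t β Λ e)
      ≤ K * (N + 1) ^ |1 - 2 / p| * J ^ (1 / p - 1) := by
  have hp0 : 0 < p := by linarith
  have hA : 0 < 3 * Real.exp |p / 2 - 1| * GG (p / 2 - 1) := by
    have := GG_pos (x := p / 2 - 1) (by intro h; apply hp2; linarith)
    positivity
  generalize hAe : 3 * Real.exp |p / 2 - 1| * GG (p / 2 - 1) = A at hA
  rcases lt_or_gt_of_ne hp2 with h2 | h2
  · have hB : 0 < 8 * Real.exp |p - 1| * GG (p - 1) := by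
      have := GG_pos (x := p - 1) (by intro h; linarith)
      positivity
    generalize hBe : 8 * Real.exp |p - 1| * GG (p - 1) = B at hB
    refine ⟨A ^ (2 - 2 / p) * B ^ (2 / p - 1), by positivity, ?_⟩
    intro E Ω S _ _ _ N J w π M u t β Λ h hJ hN
    obtain ⟨Ψ, a1, a2, a3, a4, a5, -⟩ := h.fam hp hp2 hJ Λ
    have := three a1 (by linarith : p / 2 - 1 < 0) (by linarith : 0 < p - 1) (a2 _ _) a4 a5
    rw [a3, Complex.norm_real, hAe, hBe,
      show -(p / 2 - 1) / (p - 1 - (p / 2 - 1)) = 2 / p - 1 by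
        rw [show p - 1 - (p / 2 - 1) = p / 2 by ring]; field_simp; ring] at this
    refine (le_abs_self _).trans (this.trans (le_of_eq ?_))
    have e1 : |1 - 2 / p| = 2 / p - 1 := by
      rw [abs_sub_comm, abs_of_nonneg]
      rw [sub_nonneg, le_div_iff₀ hp0]; linarith
    rw [e1, Real.mul_rpow hA.le (by positivity), Real.mul_rpow (by positivity) hB.le,
      ← Real.rpow_mul hJ.le, show -(1 / 2) * (1 - (2 / p - 1)) = 1 / p - 1 by ring,
      show 1 - (2 / p - 1) = 2 - 2 / p by ring]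
    ring
  · have hB : 0 < Real.exp 1 * GG (-1) := by
      have := GG_pos (x := -1) (by norm_num)
      positivity
    generalize hBe : Real.exp 1 * GG (-1) = B at hB
    refine ⟨A ^ (2 / p) * B ^ (1 - 2 / p), by positivity, ?_⟩
    intro E Ω S _ _ _ N J w π M u t β Λ h hJ hN
    obtain ⟨Ψ, a1, a2, a3, a4, -, a5⟩ := h.fam hp hp2 hJ Λ
    have := three a1 (by linarith : (-1 : ℝ) < 0) (by linarith : 0 < p / 2 - 1) (a2 _ _) a5 a4
    rw [a3, Complex.norm_real, hAe, hBe,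
      show - -1 / (p / 2 - 1 - -1) = 2 / p by
        rw [show p / 2 - 1 - -1 = p / 2 by ring]; field_simp] at this
    refine (le_abs_self _).trans (this.trans (le_of_eq ?_))
    have e1 : |1 - 2 / p| = 1 - 2 / p := by
      rw [abs_of_nonneg]
      rw [sub_nonneg, div_le_iff₀ hp0]; linarith
    have hBJ : 0 ≤ B / J := by positivity
    rw [e1, Real.mul_rpow hA.le (by positivity), Real.mul_rpow (by positivity) hBJ,
      Real.div_rpow hB.le hJ.le, ← Real.rpow_mul hJ.le,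
      show 1 / p - 1 = -(1 / 2) * (2 / p) - (1 - 2 / p) by ring, Real.rpow_sub hJ (-(1 / 2) * (2 / p))]
    generalize J ^ (1 - 2 / p) = a
    generalize J ^ (-(1 / 2) * (2 / p)) = b
    ring

end Vale.Agent.P249
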