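import Vale.Agent.P249.Merge

/-! Dimension reduction for one magnitude window. -/

open Finset

namespace Vale.Agent.P249

lemma tail {Ω E : Type} [Fintype Ω] [Fintype E] {π : Ω → ℝ} (h : Prob π) (U : Ω → E → ℝ)
    {B q L : ℝ} (hB : 0 < B) (h0 : ∀ ω e, |U ω e| ≤ B) (h1 : ∀ e, Ex π (fun ω => |U ω e|) ≤ B * q)
    (M : ℕ) (hM : M * q ≤ 2) [∀ ξ : Fin M → Ω, Decidable (∀ e, ∑ i, |U (ξ i) e| ≤ B * L)] :
    Ex (pr π M) (fun ξ => if ∀ e, ∑ i, |U (ξ i) e| ≤ B * L then 0 else 1)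
      ≤ Fintype.card E * Real.exp (4 - L) := by
  refine (Ex_mono (h.pr M) (ψ := fun ξ => ∑ e, Real.exp (∑ i, |U (ξ i) e| / B) * Real.exp (-L))
    fun ξ => ?_).trans ?_
  · split_ifs with hg
    · positivity
    · obtain ⟨e, he⟩ := not_forall.1 hg
      refine le_trans ?_ (Finset.single_le_sum (f := fun e =>
        Real.exp (∑ i, |U (ξ i) e| / B) * Real.exp (-L)) (fun e _ => by positivity) (mem_univ e))
      rw [← Real.exp_add, ← Finset.sum_div]
      refine Real.one_le_exp ?_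
      have := (le_div_iff₀ hB).2 ((mul_comm _ _).trans_le (not_le.1 he).le)
      linarith
  · rw [Ex_sum, ← nsmul_eq_mul, ← card_univ, ← sum_const]
    refine Finset.sum_le_sum fun e _ => ?_
    rw [Ex_mul', sub_eq_add_neg, Real.exp_add, Ex_exp M fun ω => |U ω e| / B]
    refine mul_le_mul_of_nonneg_right ?_ (Real.exp_pos _).le
    have a1 : Ex π (fun ω => Real.exp (|U ω e| / B)) ≤ Real.exp (2 * q) := by
      refine (Ex_mono h (ψ := fun ω => 1 + 2 * (|U ω e| / B)) fun ω => ?_).trans ?_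
      · have b0 : 0 ≤ |U ω e| / B := by positivity
        have b1 : |U ω e| / B ≤ 1 := (div_le_one hB).2 (h0 ω e)
        refine (exp_le_quad (by rwa [abs_of_nonneg b0])).trans ?_
        nlinarith
      · rw [Ex_add, Ex_mul, Ex_div, Ex_const h]
        have := (div_le_iff₀' hB).2 (h1 e)
        linarith [Real.add_one_le_exp (2 * q)]
    refine (pow_le_pow_left₀ (Ex_nonneg h fun ω => (Real.exp_pos _).le) a1 M).trans ?_
    rw [← Real.exp_nat_mul]
    exact Real.exp_le_exp.2 (by linarith)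

theorem flat {p : ℝ} (hp : 1 < p) : ∃ c > (0 : ℝ), ∃ R₀ > (0 : ℝ), ∀ R ≥ R₀, ∀ (E Ω : Type)
    [Fintype E]
    [Fintype Ω] (G : Submodule ℝ (E → ℝ)) (π : Ω → ℝ) (U : Ω → E → ℝ) (B q : ℝ), Prob π →
    2 * (Fintype.card E : ℝ) ≤ Real.exp R → 0 < B → B ≤ Real.exp R → Real.exp (-R) ≤ q → q ≤ 1 →
    B ^ p * q ≤ R → (∀ ω, U ω ∈ G) → (∀ ω e, |U ω e| ≤ B) →
    (∀ e, Ex π (fun ω => |U ω e|) ≤ B * q) → ∀ d : ℕ, R ^ c ≤ d →
    ∃ W : Fin d → E → ℝ, (∀ k, W k ∈ G) ∧ ∀ e, abs (∑ k, |W k e| ^ p - Ex π fun ω => |U ω e| ^ p)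
      ≤ ((Ex π fun ω => |U ω e| ^ p) + 4) / R := by
  classical
  have hp0 : 0 < p := by linarith
  have hp1 : 0 < p - 1 := by linarith
  refine ⟨(3 * p + 4 + 3 / (p - 1)) * 2 + 4, by positivity, p * 2 ^ (p - 1) + 1 + p + 5,
    by positivity, ?_⟩
  intro R hR E Ω _ _ G π U B q h hE hB hBR hq hq1 hA hG h0 h1 d hd
  have hC : 0 < p * 2 ^ (p - 1) := by positivity
  have hR5 : 5 ≤ R := by linarith
  have hRp : p ≤ R := by linarith
  have hR0 : 0 < R := by linarith
  have hR1 : 1 ≤ R := by linarith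
  have hq0 : 0 < q := (Real.exp_pos _).trans_le hq
  obtain ⟨δ, hδ, hδ1, hδ2, hδ3⟩ : ∃ δ : ℝ, 0 < δ ∧ δ ≤ 1 ∧ δ ^ (p - 1) = 1 / R ^ 3 ∧
      δ * R ^ (3 / (p - 1)) = 1 := by
    refine ⟨R ^ (-(3 / (p - 1))), by positivity, Real.rpow_le_one_of_one_le_of_nonpos hR1
      (neg_nonpos.2 (by positivity)), ?_, ?_⟩
    · rw [← Real.rpow_mul hR0.le, neg_mul, div_mul_cancel₀ _ hp1.ne', Real.rpow_neg hR0.le, one_div]
      norm_cast
    · rw [← Real.rpow_add hR0, neg_add_cancel, Real.rpow_zero]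
  obtain ⟨m, hm1, hm2⟩ : ∃ m : ℕ, m * q ≤ δ / (4 * R ^ 2) ∧ δ / (4 * R ^ 2) ≤ (m + 1) * q :=
    ⟨⌊δ / (4 * R ^ 2) / q⌋₊, (le_div_iff₀ hq0).1 (Nat.floor_le (by positivity)),
      (div_le_iff₀ hq0).1 (Nat.lt_floor_add_one _).le⟩
  have hx1 : δ / (4 * R ^ 2) ≤ 1 := by rw [div_le_one (by positivity)]; nlinarith
  have hM : ((m + 1 : ℕ) : ℝ) * q ≤ 2 := by push_cast; linarith
  have hM0 : (0 : ℝ) < m + 1 := by positivity
  have mer := fun e => merge h hp.le (fun ω => U ω e) hB hq0.le hδ (h1 e) (ζ := 1 / R)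
    (ρ := 1 / (4 * R)) (by
      rw [hδ2]
      refine (mul_le_mul (by linarith : _ ≤ R) (mul_le_mul_of_nonneg_left hA (by positivity))
        (by positivity) hR0.le).trans (le_of_eq (by field_simp)))
    (by rw [mul_one_div, div_le_one (by positivity)]; linarith) m
    ((mul_le_mul (by linarith : _ ≤ R) (div_le_div_of_nonneg_right hm1 hδ.le)
        (by positivity) hR0.le).trans (le_of_eq (by field_simp)))
  have tl := tail h U (L := 5 * R ^ 2) hB h0 h1 (m + 1) hM
  set F : (Fin (m + 1) → Ω) → E → ℝ := fun ξ =>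
    if ∀ e, ∑ i, |U (ξ i) e| ≤ B * (5 * R ^ 2) then ∑ i, U (ξ i) else 0 with hF
  have hK1 : 1 ≤ R ^ (3 * p + 4 + 3 / (p - 1)) := Real.one_le_rpow hR1 (by positivity)
  have hd' : 4 * (R ^ (3 * p + 4 + 3 / (p - 1))) ^ 2 * R ^ 3 ≤ d := by
    refine le_trans ?_ hd
    rw [Real.rpow_add hR0 _ 4, Real.rpow_mul hR0.le, Real.rpow_ofNat, Real.rpow_ofNat]
    have := mul_le_mul_of_nonneg_right (by linarith : 4 ≤ R)
      (by positivity : 0 ≤ (R ^ (3 * p + 4 + 3 / (p - 1))) ^ 2 * R ^ 3)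
    linarith
  have hd0 : (0 : ℝ) < d := lt_of_lt_of_le (by positivity) hd'
  obtain ⟨ξ, hξ⟩ := sample (h.pr (m + 1)) (fun ξ e => |F ξ e| ^ p / (m + 1)) (ζ := 1 / R)
    (K := R ^ (3 * p + 4 + 3 / (p - 1))) (by positivity)
    (((div_le_one hR0).2 hR1).trans hK1) (fun ξ e => by positivity) (fun ξ e => by
      have a1 : |F ξ e| ≤ B * R ^ 3 := by
        simp only [hF]
        split_ifs with hg
        · rw [Finset.sum_apply]
          exact (Finset.abs_sum_le_sum_abs _ _).trans ((hg e).trans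
            (mul_le_mul_of_nonneg_left (by nlinarith) hB.le))
        · simp only [Pi.zero_apply, abs_zero]; positivity
      have a2 := Real.rpow_le_rpow (abs_nonneg _) a1 hp0.le
      rw [Real.mul_rpow hB.le (by positivity), ← Real.rpow_natCast, ← Real.rpow_mul hR0.le] at a2
      rw [div_le_iff₀ hM0, Real.rpow_add hR0, Real.rpow_add hR0, Real.rpow_ofNat]
      refine a2.trans (le_of_mul_le_mul_right ?_ hq0)
      have a3 : R ≤ R ^ 4 * R ^ (3 / (p - 1)) * ((m + 1) * q) := by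
        refine le_trans ?_ (mul_le_mul_of_nonneg_left hm2 (by positivity))
        rw [mul_assoc, ← mul_div_assoc, mul_comm _ δ, hδ3, mul_one_div, le_div_iff₀ (by positivity)]
        have : 0 ≤ R ^ 3 := by positivity
        nlinarith
      have := mul_le_mul_of_nonneg_left (hA.trans a3) (by positivity : 0 ≤ R ^ (3 * p))
      push_cast
      linarith) hE d (by exact_mod_cast hd0) (by
      rw [one_div, inv_pow, inv_mul_eq_div, le_div_iff₀ (by positivity)]
      linarith)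
  refine ⟨fun k => (1 / ((m + 1) * d) : ℝ) ^ (1 / p) • F (ξ k), fun k => G.smul_mem _ ?_,
    fun e => ?_⟩
  · simp only [hF]
    split_ifs
    · exact G.sum_mem fun i _ => hG _
    · exact G.zero_mem
  have e1 : ∑ k, |((1 / ((m + 1) * d) : ℝ) ^ (1 / p) • F (ξ k)) e| ^ p
      = (∑ k, |F (ξ k) e| ^ p / (m + 1)) / d := by
    rw [Finset.sum_div]
    refine Finset.sum_congr rfl fun k _ => ?_
    rw [Pi.smul_apply, smul_eq_mul, abs_mul, abs_of_nonneg (by positivity),
      Real.mul_rpow (by positivity) (abs_nonneg _), one_div p,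
      Real.rpow_inv_rpow (by positivity) hp0.ne']
    field_simp
  have e2 : abs (Ex (pr π (m + 1)) (fun ξ => |F ξ e| ^ p)
      - Ex (pr π (m + 1)) fun ξ => |∑ i, U (ξ i) e| ^ p) ≤ 1 / R := by
    rw [← Ex_sub]
    refine (Ex_abs (h.pr _) (ψ := fun ξ => Real.exp (3 * R ^ 2) *
      if ∀ e, ∑ i, |U (ξ i) e| ≤ B * (5 * R ^ 2) then 0 else 1) fun ξ => ?_).trans ?_
    · simp only [hF]
      split_ifs with hg
      · simp
      · rw [Pi.zero_apply, abs_zero, Real.zero_rpow hp0.ne', zero_sub, abs_neg,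
          abs_of_nonneg (by positivity), mul_one]
        have a1 : (m + 1 : ℝ) ≤ Real.exp (2 * R) := by
          refine le_of_mul_le_mul_right (le_trans ?_ (mul_le_mul_of_nonneg_left hq
            (Real.exp_pos _).le)) hq0
          rw [← Real.exp_add]
          push_cast at hM
          linarith [Real.add_one_le_exp (2 * R + -R)]
        have a2 : |∑ i, U (ξ i) e| ≤ Real.exp (3 * R) := by
          refine (Finset.abs_sum_le_sum_abs _ _).trans ((Finset.sum_le_sum fun i _ =>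
            h0 (ξ i) e).trans ?_)
          rw [sum_const, card_univ, Fintype.card_fin, nsmul_eq_mul, show 3 * R = 2 * R + R by ring,
            Real.exp_add]
          push_cast
          exact mul_le_mul a1 hBR hB.le (by positivity)
        refine (Real.rpow_le_rpow (abs_nonneg _) a2 hp0.le).trans ?_
        rw [← Real.exp_mul]
        exact Real.exp_le_exp.2 (by nlinarith)
    · rw [Ex_mul]
      refine (mul_le_mul_of_nonneg_left (tl.trans (mul_le_mul_of_nonneg_right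
        (by linarith [Nat.cast_nonneg (α := ℝ) (Fintype.card E)] : _ ≤ Real.exp R)
        (Real.exp_pos _).le)) (Real.exp_pos _).le).trans ?_
      rw [← Real.exp_add, ← Real.exp_add]
      refine (Real.exp_le_exp.2 (by nlinarith : _ ≤ -R)).trans ?_
      rw [Real.exp_neg, one_div]
      exact inv_anti₀ hR0 (by linarith [Real.add_one_le_exp R])
  have e3 := hξ e
  have e4 := mer e
  rw [e1]
  rw [Ex_div] at e3
  generalize (∑ k, |F (ξ k) e| ^ p / (m + 1)) / d = a at e3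
  generalize Ex (pr π (m + 1)) (fun ξ => |F ξ e| ^ p) = b at e2 e3
  generalize Ex (pr π (m + 1)) (fun ξ => |∑ i, U (ξ i) e| ^ p) = c at e2 e4
  generalize Ex π (fun ω => |U ω e| ^ p) = V at e4
  have e5 : |b / (m + 1) - c / (m + 1)| ≤ 1 / R := by
    rw [← sub_div, abs_div, abs_of_pos hM0, div_le_iff₀ hM0]
    exact e2.trans (le_mul_of_one_le_right (by positivity) (by linarith [Nat.cast_nonneg (α := ℝ) m]))
  have e6 : |c / (m + 1) - V| ≤ 2 * (1 / R) + 4 * (1 / (4 * R)) * V := by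
    rwa [div_sub' hM0.ne', abs_div, abs_of_pos hM0, div_le_iff₀' hM0]
  rw [show (V + 4) / R = 1 / R + 1 / R + (2 * (1 / R) + 4 * (1 / (4 * R)) * V) by field_simp; ring]
  rw [abs_le] at e3 e5 e6 ⊢
  constructor <;> linarith [e3.1, e3.2, e5.1, e5.2, e6.1, e6.2]

end Vale.Agent.P249
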