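import Vale.Agent.P249.Minimax

/-! Splitting a gradient field into gradient fields of comparable magnitude. -/

open Finset

namespace Vale.Agent.P249

noncomputable def tent (J j t : ℕ) : ℝ := max (1 - |(t : ℝ) + J - j| / J) 0

lemma tent_nonneg (J j t : ℕ) : 0 ≤ tent J j t := le_max_right _ _

lemma tent_le (J j t : ℕ) : tent J j t ≤ 1 := max_le (sub_le_self _ (by positivity)) zero_le_one

lemma tent_lip {J : ℕ} (hJ : 0 < J) (j y : ℕ) : |tent J j (y + 1) - tent J j y| ≤ 1 / J := by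
  have : (0 : ℝ) < J := by exact_mod_cast hJ
  refine (abs_max_sub_max_le_abs _ _ _).trans ?_
  rw [sub_sub_sub_cancel_left, ← sub_div, abs_div, abs_of_pos this]
  refine div_le_div_of_nonneg_right ((abs_abs_sub_abs_le_abs_sub _ _).trans (le_of_eq ?_)) this.le
  push_cast
  rw [show (y : ℝ) + J - j - (y + 1 + J - j) = -1 by ring]
  simp

lemma tent_zero {J : ℕ} (hJ : 0 < J) {j t : ℕ} (h : j ≤ t ∨ t + 2 * J ≤ j) : tent J j t = 0 := by
  have : (0 : ℝ) < J := by exact_mod_cast hJ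
  refine max_eq_right (sub_nonpos.2 ((one_le_div this).2 ?_))
  rcases h with h | h
  · have : (j : ℝ) ≤ t := by exact_mod_cast h
    exact le_abs.2 (Or.inl (by linarith))
  · have : (t : ℝ) + 2 * J ≤ j := by exact_mod_cast h
    exact le_abs.2 (Or.inr (by linarith))

lemma tent_var {J : ℕ} (hJ : 0 < J) (S y : ℕ) :
    ∑ j : Fin S, |tent J j (y + 1) - tent J j y| ≤ 4 := by
  have : (0 : ℝ) < J := by exact_mod_cast hJ
  rw [Fin.sum_univ_eq_sum_range fun j => |tent J j (y + 1) - tent J j y|,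
    ← Finset.sum_subset (Finset.inter_subset_left (s₂ := Ioc y (y + 2 * J)))]
  · refine (Finset.sum_le_sum fun j _ => tent_lip hJ j y).trans ?_
    refine (Finset.sum_le_sum_of_subset_of_nonneg Finset.inter_subset_right
      fun _ _ _ => by positivity).trans ?_
    simp only [sum_const, Nat.card_Ioc, add_tsub_cancel_left, nsmul_eq_mul]
    push_cast
    field_simp
    norm_num
  · intro j hj hj'
    simp only [mem_inter, hj, true_and, mem_Ioc, not_and_or, not_lt, not_le] at hj'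
    rw [tent_zero hJ (by omega), tent_zero hJ (by omega)]
    simp

lemma tent_sum {J : ℕ} (hJ : 0 < J) {p : ℝ} (hp : 0 < p) {Λ t : ℕ} (ht : t ≤ Λ) :
    ∑ j : Fin (Λ + 2 * J + 1), tent J j t ^ p = ∑ i ∈ range (2 * J + 1), tent J i 0 ^ p := by
  rw [Fin.sum_univ_eq_sum_range fun j => tent J j t ^ p,
    ← Finset.sum_subset (s₁ := Ico t (t + (2 * J + 1))), Finset.sum_Ico_eq_sum_range,
    add_tsub_cancel_left]
  · refine Finset.sum_congr rfl fun i _ => ?_
    simp only [tent]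
    push_cast
    rw [show (t : ℝ) + J - (t + i) = 0 + J - i by ring]
  · intro j hj
    simp only [mem_Ico, mem_range] at hj ⊢
    omega
  · intro j _ hj'
    simp only [mem_Ico, not_and_or, not_lt, not_le] at hj'
    rw [tent_zero hJ (by omega), Real.zero_rpow hp.ne']

lemma tent_low {J : ℕ} (hJ : 0 < J) {p : ℝ} (hp : 1 ≤ p) :
    1 ≤ ∑ i ∈ range (2 * J + 1), tent J i 0 ^ p ∧
    (J : ℝ) * (1 / 4) ^ p ≤ ∑ i ∈ range (2 * J + 1), tent J i 0 ^ p := by
  have hJ' : (0 : ℝ) < J := by exact_mod_cast hJ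
  have h0 : ∀ i, 0 ≤ tent J i 0 ^ p := fun i => Real.rpow_nonneg (tent_nonneg _ _ _) _
  constructor
  · refine le_trans (le_of_eq ?_) (Finset.single_le_sum (a := J) (fun i _ => h0 i)
      (mem_range.2 (by omega)))
    simp [tent]
  · refine le_trans ?_ (Finset.sum_le_sum_of_subset_of_nonneg (s := Icc J (J + J / 2))
      (fun i hi => by simp only [mem_Icc, mem_range] at hi ⊢; omega) fun i _ _ => h0 i)
    refine le_trans ?_ (Finset.sum_le_sum (f := fun _ => (1 / 2 : ℝ) ^ p) fun i hi => ?_)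
    · have a1 : (J : ℝ) ≤ 2 * ((J + J / 2 + 1 - J : ℕ) : ℝ) := by
        exact_mod_cast (by omega : J ≤ 2 * (J + J / 2 + 1 - J))
      have a2 : (1 / 2 : ℝ) ^ p ≤ 1 / 2 := by
        simpa using Real.rpow_le_rpow_of_exponent_ge (x := 1 / 2) (by norm_num) (by norm_num) hp
      have a3 : (0 : ℝ) ≤ (1 / 2) ^ p := by positivity
      rw [sum_const, Nat.card_Icc, nsmul_eq_mul, show (1 / 4 : ℝ) = 1 / 2 * (1 / 2) by norm_num,
        Real.mul_rpow (by norm_num) (by norm_num), ← mul_assoc]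
      exact mul_le_mul_of_nonneg_right (by nlinarith) a3
    · refine Real.rpow_le_rpow (by norm_num) (le_max_of_le_left ?_) (by linarith)
      obtain ⟨h1, h2⟩ := mem_Icc.1 hi
      have a1 : (J : ℝ) ≤ i := by exact_mod_cast h1
      have a2 : 2 * (i : ℝ) ≤ 3 * J := by exact_mod_cast (by omega : 2 * i ≤ 3 * J)
      have : |((0 : ℕ) : ℝ) + J - i| / J ≤ 1 / 2 := by
        rw [div_le_iff₀ hJ', abs_le]
        constructor <;> push_cast <;> linarith
      linarith

lemma mom_two {Ω : Type} [Fintype Ω] {π v : Ω → ℝ} {p : ℝ} (hπ : ∀ ω, 0 ≤ π ω)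
    (hπ1 : ∑ ω, π ω = 1) (h : ∑ ω, π ω * |v ω| ^ p ≤ 1) : ∑ ω, π ω * (max |v ω| 1) ^ p ≤ 2 := by
  have : ∀ ω, π ω * (max |v ω| 1) ^ p ≤ π ω * |v ω| ^ p + π ω := fun ω => by
    have a1 : 0 ≤ |v ω| ^ p := by positivity
    have a2 : (max |v ω| 1) ^ p ≤ |v ω| ^ p + 1 := by
      rcases le_total |v ω| 1 with h1 | h1
      · rw [max_eq_right h1, Real.one_rpow]; linarith
      · rw [max_eq_left h1]; linarith
    nlinarith [hπ ω]
  refine (Finset.sum_le_sum fun ω _ => this ω).trans ?_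
  rw [Finset.sum_add_distrib, hπ1]
  linarith

theorem windows {p : ℝ} (hp : 1 < p) (hp2 : p ≠ 2) : ∃ K > 0, ∀ (E Ω : Type) [Fintype E]
    [Nonempty E] [Fintype Ω] (G : Submodule ℝ (E → ℝ)) (N ε : ℝ) (π : Ω → ℝ)
    (u : E → Ω → ℝ) (J Λ : ℕ), Flowy G N → 0 ≤ N → 0 < ε → ε ≤ 1 →
    K * (N + 1) ^ |1 - 2 / p| ≤ ε * J →
    (∀ ω, 0 ≤ π ω) → ∑ ω, π ω = 1 → (∀ ω, (fun e => u e ω) ∈ G) →
    (∀ e, ∑ ω, π ω * |u e ω| ^ p ≤ 1) → (∀ e ω, |u e ω| ≤ Real.exp Λ) →
    ∃ κ ≥ (1 : ℝ), ∃ U : Fin (Λ + 2 * J + 1) → Ω → E → ℝ, (∀ s ω, U s ω ∈ G) ∧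
      (∀ s ω e, |U s ω e| ≤ 9 * (N + 1) * Real.exp s) ∧
      (∀ s e, ∑ ω, π ω * |U s ω e|
        ≤ 9 * (N + 1) * Real.exp s * min 1 (2 * Real.exp (-p * (s - 2 * J)))) ∧
      ∀ e, ∑ ω, π ω * |u e ω| ^ p = 1 → (1 - ε) ^ p * κ ≤ ∑ s, ∑ ω, π ω * |U s ω e| ^ p ∧
        ∑ s, ∑ ω, π ω * |U s ω e| ^ p ≤ (1 + ε) ^ p * κ := by
  obtain ⟨K, hK, hc⟩ := uniform hp hp2
  refine ⟨4 * K, by positivity, ?_⟩
  intro E Ω _ _ _ G N ε π u J Λ hF hN hε hε1 hKJ hπ hπ1 hu mom hΛ
  have hp0 : 0 < p := by linarith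
  have hJ' : (0 : ℝ) < J := by
    have : 0 < 4 * K * (N + 1) ^ |1 - 2 / p| := by positivity
    exact pos_of_mul_pos_right (this.trans_le hKJ) hε.le
  have hJ : 0 < J := by exact_mod_cast hJ'
  have hm : ∀ e ω, (0 : ℝ) < max |u e ω| 1 := fun e ω => lt_max_of_lt_right one_pos
  set t : E → Ω → ℕ := fun e ω => ⌈Real.log (max |u e ω| 1)⌉₊ 
  have lo : ∀ e ω, |u e ω| ≤ Real.exp (t e ω) := fun e ω =>
    (le_max_left _ 1).trans ((Real.log_le_iff_le_exp (hm e ω)).1 (Nat.le_ceil _))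
  have hi : ∀ e ω, Real.exp (t e ω) ≤ Real.exp 1 * max |u e ω| 1 := fun e ω => by
    rw [← Real.exp_log (hm e ω), ← Real.exp_add, add_comm]
    exact Real.exp_le_exp.2 (Nat.ceil_lt_add_one (Real.log_nonneg (le_max_right _ _))).le
  have htΛ : ∀ e ω, t e ω ≤ Λ := fun e ω => Nat.ceil_le.2 ((Real.log_le_iff_le_exp (hm e ω)).2
    (max_le (hΛ e ω) (Real.one_le_exp (Nat.cast_nonneg _))))
  obtain ⟨M, m1, m2, m3, m4⟩ := hc E Ω (Fin (Λ + 2 * J + 1)) G N J π u t
    (fun s y => tent J s (y + 1) - tent J s y) Λ hF hJ' hN hπ hπ1 hu mom lo hi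
    (fun s y => tent_lip hJ s y) fun y => tent_var hJ _ y
  clear hc
  clear_value t
  have hΦ : ∀ (s : ℕ) e ω, |tent J s (t e ω) * u e ω| ≤ Real.exp s ∧ |tent J s (t e ω) * u e ω|
      ≤ Real.exp s * Real.exp (-p * (s - 2 * J)) * (max |u e ω| 1) ^ p := fun s e ω => by
    have := hm e ω
    by_cases h : s ≤ t e ω ∨ t e ω + 2 * J ≤ s
    · rw [tent_zero hJ h, zero_mul, abs_zero]
      exact ⟨by positivity, by positivity⟩
    · have a1 : (t e ω : ℝ) ≤ s := by exact_mod_cast (by omega : t e ω ≤ s)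
      have a2 : (s : ℝ) + 1 ≤ t e ω + 2 * J := by exact_mod_cast (by omega : s + 1 ≤ t e ω + 2 * J)
      have a3 : |tent J s (t e ω) * u e ω| ≤ Real.exp s := by
        rw [abs_mul, abs_of_nonneg (tent_nonneg _ _ _)]
        exact (mul_le_of_le_one_left (abs_nonneg _) (tent_le _ _ _)).trans
          ((lo e ω).trans (Real.exp_le_exp.2 a1))
      refine ⟨a3, a3.trans ?_⟩
      have a4 : Real.exp (s - 2 * J) ≤ max |u e ω| 1 := by
        refine le_of_mul_le_mul_left (le_trans ?_ (hi e ω)) (Real.exp_pos 1)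
        rw [← Real.exp_add]
        exact Real.exp_le_exp.2 (by linarith)
      have a5 := Real.rpow_le_rpow (Real.exp_pos _).le a4 hp0.le
      rw [mul_assoc]
      refine le_mul_of_one_le_right (by positivity) (le_trans (le_of_eq ?_)
        (mul_le_mul_of_nonneg_left a5 (Real.exp_pos _).le))
      rw [← Real.exp_mul, ← Real.exp_add, ← Real.exp_zero]
      congr 1; ring
  obtain ⟨k1, k2⟩ := tent_low hJ hp.le
  refine ⟨_, k1, fun s ω e => ∑ e', tent J s (t e' ω) * u e' ω * M e' e, fun s ω => ?_,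
    fun s ω e => ?_, fun s e => ?_, fun e he => ?_⟩
  · have := G.sum_mem (t := univ) fun e' _ => G.smul_mem (tent J s (t e' ω) * u e' ω) (m1 e')
    convert this using 1
    funext e
    simp
  · refine (Finset.abs_sum_le_sum_abs _ _).trans ((Finset.sum_le_sum fun e' _ =>
      (abs_mul _ _).trans_le (mul_le_mul_of_nonneg_right (hΦ s e' ω).1 (abs_nonneg _))).trans ?_)
    rw [← Finset.mul_sum, mul_comm]
    exact mul_le_mul_of_nonneg_right (m3 e) (by positivity)
  · have a1 : ∀ e', ∑ ω, π ω * |tent J s (t e' ω) * u e' ω|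
        ≤ Real.exp s * min 1 (2 * Real.exp (-p * (s - 2 * J))) := fun e' => by
      rw [mul_min_of_nonneg _ _ (Real.exp_pos _).le]
      refine le_min ?_ ?_
      · refine (Finset.sum_le_sum fun ω _ => mul_le_mul_of_nonneg_left (hΦ s e' ω).1 (hπ ω)).trans ?_
        rw [← Finset.sum_mul, hπ1, mul_comm]
      · refine (Finset.sum_le_sum fun ω _ => mul_le_mul_of_nonneg_left (hΦ s e' ω).2 (hπ ω)).trans ?_
        simp only [mul_left_comm (π _), ← Finset.mul_sum]
        refine (mul_le_mul_of_nonneg_left (mom_two hπ hπ1 (mom e')) (by positivity)).trans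
          (le_of_eq (by ring))
    refine (Finset.sum_le_sum fun ω _ => mul_le_mul_of_nonneg_left
      (Finset.abs_sum_le_sum_abs _ _) (hπ ω)).trans ?_
    simp only [Finset.mul_sum]
    rw [Finset.sum_comm]
    simp only [abs_mul _ (M _ _), ← mul_assoc, ← Finset.sum_mul]
    refine (Finset.sum_le_sum fun e' _ => mul_le_mul_of_nonneg_right (a1 e') (abs_nonneg _)).trans ?_
    rw [← Finset.mul_sum, mul_comm, mul_assoc (9 * (N + 1))]
    exact mul_le_mul_of_nonneg_right (m3 e) (by positivity)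
  · have hμ : ∀ i : Ω × Fin (Λ + 2 * J + 1), 0 ≤ π i.1 := fun i => hπ i.1
    generalize hκ : ∑ i ∈ range (2 * J + 1), tent J i 0 ^ p = κ at k1 k2
    have a1 : nrm (fun i : Ω × Fin (Λ + 2 * J + 1) => π i.1) p
        (fun i => tent J i.2 (t e i.1) * u e i.1) = κ ^ (1 / p) := by
      rw [nrm, Fintype.sum_prod_type]
      simp only [abs_mul, abs_of_nonneg (tent_nonneg _ _ _),
        Real.mul_rpow (tent_nonneg _ _ _) (abs_nonneg _), ← Finset.mul_sum, ← Finset.sum_mul,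
        tent_sum hJ hp0 (htΛ _ _), hκ, mul_left_comm (π _), he, mul_one]
    have a2 : ∀ (s : ℕ) e ω, tent J s (t e ω) * u e ω = tent J s 0 * u e ω + ∑ y ∈ range Λ,
        (tent J s (y + 1) - tent J s y) * if y < t e ω then u e ω else 0 := fun s e ω => by
      simp only [mul_ite, mul_zero]
      rw [← Finset.sum_filter, ← Finset.sum_mul, show (range Λ).filter (· < t e ω) = range (t e ω) by
        ext y; have := htΛ e ω; simp only [mem_filter, mem_range]; omega,
        Finset.sum_range_sub fun y => tent J s y]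
      ring
    have a3 : ∀ i : Ω × Fin (Λ + 2 * J + 1), ∑ e', tent J i.2 (t e' i.1) * u e' i.1 * M e' e
        = tent J i.2 (t e i.1) * u e i.1
          + err M u t (fun (s : Fin (Λ + 2 * J + 1)) y => tent J s (y + 1) - tent J s y) Λ e i :=
      fun i => by
      have := m2 _ (hu i.1) e
      simp only [a2, err, cut, add_mul, Finset.sum_add_distrib, mul_assoc, ← Finset.mul_sum, this,
        mul_sub _ (∑ _, _), Finset.sum_sub_distrib, Finset.sum_mul]
      rw [Finset.sum_comm]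
      simp only [← Finset.mul_sum]
      ring
    have a4 := (nrm_sub hμ hp.le (fun i => tent J i.2 (t e i.1) * u e i.1) _).trans (m4 e)
    simp only [← a3, a1] at a4
    have a5 : K * (N + 1) ^ |1 - 2 / p| * (J : ℝ) ^ (1 / p - 1) ≤ ε * κ ^ (1 / p) := by
      have b1 := Real.rpow_le_rpow (by positivity) k2 (by positivity : 0 ≤ 1 / p)
      rw [Real.mul_rpow hJ'.le (by positivity), ← Real.rpow_mul (by norm_num),
        mul_one_div_cancel hp0.ne', Real.rpow_one] at b1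
      rw [Real.rpow_sub_one hJ'.ne', ← mul_div_assoc, div_le_iff₀ hJ']
      have b2 : 0 ≤ (J : ℝ) ^ (1 / p) := by positivity
      have b3 := mul_le_mul hKJ b1 (by positivity) (by positivity)
      linarith
    have a6 := abs_le.1 (a4.trans a5)
    rw [Finset.sum_comm, ← Fintype.sum_prod_type (fun i : Ω × Fin (Λ + 2 * J + 1) => π i.1 *
      |∑ e', tent J i.2 (t e' i.1) * u e' i.1 * M e' e| ^ p), ← nrm_rpow hμ hp0]
    have a7 : ∀ c, 0 ≤ c → c ^ p * κ = (c * κ ^ (1 / p)) ^ p := fun c hc => by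
      rw [Real.mul_rpow hc (by positivity), one_div, Real.rpow_inv_rpow (by linarith) hp0.ne']
    have a8 : 0 ≤ κ ^ (1 / p) := by positivity
    rw [a7 _ (by linarith), a7 _ (by linarith)]
    exact ⟨Real.rpow_le_rpow (mul_nonneg (by linarith) a8) (by linarith [a6.1]) hp0.le,
      Real.rpow_le_rpow (nrm_nonneg hμ _ _) (by linarith [a6.2]) hp0.le⟩

end Vale.Agent.P249
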