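import Vale.Agent.P249.Flow
import Vale.Agent.P249.Window
import Vale.Agent.P249.Flat

/-! Dimension reduction for finite configurations. -/

open Finset

namespace Vale.Agent.P249

lemma density {E Ω : Type} [Fintype E] [Fintype Ω] {G : Submodule ℝ (E → ℝ)} {π : Ω → ℝ}
    {p : ℝ} (hp : 1 ≤ p) (h : Prob π) (u : Ω → E → ℝ) (hu : ∀ ω, u ω ∈ G)
    (mom : ∀ e, ∑ ω, π ω * |u ω e| ^ p ≤ 1) : ∃ (π' : Ω → ℝ) (u' : Ω → E → ℝ), Prob π' ∧
      (∀ ω, u' ω ∈ G) ∧ (∀ e, ∑ ω, π' ω * |u' ω e| ^ p = ∑ ω, π ω * |u ω e| ^ p) ∧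
      ∀ ω e, |u' ω e| ≤ 1 + Fintype.card E := by
  have hp0 : 0 < p := by linarith
  have hs : ∀ ω, 0 < 1 + ∑ e, |u ω e| ^ p := fun ω => by positivity
  obtain ⟨Z, hZ, hZ1, hZ2⟩ : ∃ Z, Z = Ex π (fun ω => 1 + ∑ e, |u ω e| ^ p) ∧ 1 ≤ Z ∧
      Z ≤ 1 + Fintype.card E := by
    refine ⟨_, rfl, (Ex_const h 1).ge.trans (Ex_mono h fun ω => le_add_of_nonneg_right
      (by positivity)), ?_⟩
    rw [Ex_add, Ex_const h, Ex_sum]
    exact add_le_add_right ((Finset.sum_le_sum fun e _ => mom e).trans (by simp)) _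
  have hZ0 : 0 < Z := by linarith
  have key : ∀ ω e, |((Z / (1 + ∑ e, |u ω e| ^ p)) ^ (1 / p) • u ω) e| ^ p
      = Z / (1 + ∑ e, |u ω e| ^ p) * |u ω e| ^ p := fun ω e => by
    have := hs ω
    rw [Pi.smul_apply, smul_eq_mul, abs_mul, abs_of_nonneg (by positivity),
      Real.mul_rpow (by positivity) (abs_nonneg _), one_div p,
      Real.rpow_inv_rpow (by positivity) hp0.ne']
  refine ⟨fun ω => π ω * (1 + ∑ e, |u ω e| ^ p) / Z,
    fun ω => (Z / (1 + ∑ e, |u ω e| ^ p)) ^ (1 / p) • u ω,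
    ⟨fun ω => div_nonneg (mul_nonneg (h.1 ω) (hs ω).le) hZ0.le, ?_⟩,
    fun ω => G.smul_mem _ (hu ω), fun e => Finset.sum_congr rfl fun ω _ => ?_, fun ω e => ?_⟩
  · rw [← Finset.sum_div, div_eq_one_iff_eq hZ0.ne', hZ]; rfl
  · rw [key]
    have := hs ω
    field_simp
  · refine le_trans ?_ hZ2
    rw [← Real.rpow_le_rpow_iff (abs_nonneg _) hZ0.le hp0, key]
    refine le_trans ?_ (by simpa using Real.rpow_le_rpow_of_exponent_le hZ1 hp : Z ≤ Z ^ p)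
    rw [div_mul_eq_mul_div, div_le_iff₀ (hs ω)]
    refine mul_le_mul_of_nonneg_left (le_add_of_nonneg_of_le zero_le_one ?_) hZ0.le
    exact Finset.single_le_sum (f := fun e => |u ω e| ^ p) (fun e _ => by positivity) (mem_univ e)

noncomputable def gradL {X : Type} [Fintype X] (d : X → X → ℝ) : (X → ℝ) →ₗ[ℝ] (X × X → ℝ) where
  toFun := grad d
  map_add' f g := by funext e; simp only [grad, Pi.add_apply]; ring
  map_smul' c f := by funext e; simp only [grad, Pi.smul_apply, smul_eq_mul, RingHom.id_apply]; ring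

lemma flowy {X : Type} [Fintype X] [Nonempty X] {d : X → X → ℝ} (hds : ∀ x y, d x y = d y x)
    (hd : ∀ x y, x ≠ y → 0 < d x y) :
    Flowy (LinearMap.range (gradL d)) (12 * Real.log (Fintype.card X)) := by
  intro w hw hw1
  have hn : (0 : ℝ) < Fintype.card (X × X) := by exact_mod_cast Fintype.card_pos
  have h1 : ∑ e : X × X, ((w e + w e.swap) / 4 + 1 / (2 * Fintype.card (X × X))) = 1 := by
    rw [Finset.sum_add_distrib, ← Finset.sum_div, Finset.sum_add_distrib, hw1,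
      Fintype.sum_equiv (Equiv.prodComm X X) (fun e => w e.swap) w fun _ => rfl, hw1, sum_const,
      card_univ, nsmul_eq_mul]
    field_simp
    norm_num
  obtain ⟨Pot, a1, a2, a3⟩ := exists_flow (d := d)
    (w := fun e => (w e + w e.swap) / 4 + 1 / (2 * Fintype.card (X × X))) hds hd
    (fun e => by have := hw e; have := hw e.swap; positivity)
    (fun x y => by simp only [Prod.swap_prod_mk]; ring) h1
  refine ⟨_, fun e => grad d (Pot e), fun e => ?_, h1, fun e => ⟨Pot e, rfl⟩, ?_, a2, a3⟩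
  · have := hw e.swap
    have : (0 : ℝ) ≤ 1 / (2 * Fintype.card (X × X)) := by positivity
    linarith
  · rintro _ ⟨g, rfl⟩ e
    exact a1 g e

theorem core {p : ℝ} (hp : 1 < p) (hp2 : p ≠ 2) : ∃ K > (0 : ℝ), ∃ c > (0 : ℝ), ∃ R₀ > (0 : ℝ),
    ∀ (X Ω : Type) [Fintype X] [Nonempty X] [Fintype Ω] (π : Ω → ℝ) (g : Ω → X → ℝ) (ε R N n : ℝ)
    (J Λ d : ℕ), Prob π → (∀ x y, x ≠ y → 0 < ∑ ω, π ω * |g ω x - g ω y| ^ p) →
    n = Fintype.card X → N = 12 * Real.log n → 0 < ε → ε ≤ 1 →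
    K * (N + 1) ^ |1 - 2 / p| ≤ ε * J → 1 + n ^ 2 ≤ Real.exp Λ → R₀ ≤ R →
    2 * n ^ 2 ≤ Real.exp R → 9 * (N + 1) * Real.exp (Λ + 2 * J) ≤ Real.exp R → p * Λ ≤ R →
    2 * (9 * (N + 1)) ^ p * Real.exp (2 * p * J) ≤ R → 4 * (Λ + 2 * J + 1) ≤ ε * R →
    R ^ c ≤ d → ∃ κ > (0 : ℝ), ∃ f : X → Fin (Λ + 2 * J + 1) × Fin d → ℝ, ∀ x y,
      ((1 - ε) * (1 - ε) ^ p - ε) * κ * ∑ ω, π ω * |g ω x - g ω y| ^ p
        ≤ ∑ i, |f x i - f y i| ^ p ∧ ∑ i, |f x i - f y i| ^ p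
        ≤ ((1 + ε) * (1 + ε) ^ p + ε) * κ * ∑ ω, π ω * |g ω x - g ω y| ^ p := by
  obtain ⟨K, hK, hwin⟩ := windows hp hp2
  obtain ⟨c, hc, R₀, hR₀, hflat⟩ := flat hp
  refine ⟨K, hK, c, hc, R₀, hR₀, ?_⟩
  intro X Ω _ _ _ π g ε R N n J Λ d h hg hn hN hε hε1 hJ hΛ hR h1 h2 h3 h4 h5 hd
  have hp0 : 0 < p := by linarith
  have hR0 : 0 < R := by linarith
  have hN0 : 0 ≤ N := by
    rw [hN, hn]; exact mul_nonneg (by norm_num) (Real.log_natCast_nonneg _)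
  have hcard : (Fintype.card (X × X) : ℝ) = n ^ 2 := by simp [hn, sq]
  set D : X → X → ℝ := fun x y => nrm π p fun ω => g ω x - g ω y with hD
  have hDp : ∀ x y, D x y ^ p = ∑ ω, π ω * |g ω x - g ω y| ^ p := fun x y => nrm_rpow h.1 hp0 _
  have hD0 : ∀ x y, x ≠ y → 0 < D x y := fun x y hxy => Real.rpow_pos_of_pos (hg x y hxy) _
  have hDs : ∀ x y, D x y = D y x := fun x y => by simp only [hD, nrm, abs_sub_comm (g _ x)]
  have hgr : ∀ (f : X → ℝ) x y, x ≠ y → |grad D f (x, y)| ^ p = |f x - f y| ^ p / D x y ^ p :=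
    fun f x y hxy => by
      rw [grad, abs_div, abs_of_pos (hD0 x y hxy), Real.div_rpow (abs_nonneg _) (hD0 x y hxy).le]
  have hone : ∀ x y, x ≠ y → ∑ ω, π ω * |grad D (g ω) (x, y)| ^ p = 1 := fun x y hxy => by
    simp only [hgr _ x y hxy, ← mul_div_assoc, ← Finset.sum_div, hDp]
    exact div_self (hg x y hxy).ne'
  have hmom : ∀ e, ∑ ω, π ω * |grad D (g ω) e| ^ p ≤ 1 := by
    rintro ⟨x, y⟩
    rcases eq_or_ne x y with rfl | hxy
    · simp [grad, Real.zero_rpow hp0.ne']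
    · exact (hone x y hxy).le
  obtain ⟨π', u, h', hu, hu1, hu2⟩ := density (G := LinearMap.range (gradL D)) hp.le h
    (fun ω => grad D (g ω)) (fun ω => ⟨g ω, rfl⟩) hmom
  obtain ⟨κ, hκ, U, a1, a2, a3, a4⟩ := hwin (X × X) Ω _ N ε π' (fun e ω => u ω e) J Λ
    (by rw [hN, hn]; exact flowy hDs hD0) hN0 hε hε1 hJ h'.1 h'.2 hu
    (fun e => (hu1 e).trans_le (hmom e)) fun e ω => (hu2 ω e).trans (by rwa [hcard])
  have hs : ∀ s : Fin (Λ + 2 * J + 1), (s : ℝ) ≤ Λ + 2 * J := fun s => by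
    exact_mod_cast Nat.lt_succ_iff.1 s.2
  choose W b1 b2 using fun s : Fin (Λ + 2 * J + 1) => hflat R hR (X × X) Ω _ π' (U s)
    (9 * (N + 1) * Real.exp s) (min 1 (2 * Real.exp (-p * (s - 2 * J)))) h' (by rwa [hcard])
    (by positivity) ((mul_le_mul_of_nonneg_left (Real.exp_le_exp.2 (hs s))
      (by positivity)).trans h2)
    (le_min (Real.exp_le_one_iff.2 (by linarith)) (by
      have : Real.exp (-R) ≤ Real.exp (-p * (s - 2 * J)) :=
        Real.exp_le_exp.2 (by nlinarith [hs s])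
      linarith [Real.exp_pos (-R)])) (min_le_left _ _)
    ((mul_le_mul_of_nonneg_left (min_le_right _ _) (by positivity)).trans (le_trans (le_of_eq (by
      rw [Real.mul_rpow (by positivity) (Real.exp_pos _).le, ← Real.exp_mul,
        show 2 * p * J = s * p + -p * (s - 2 * J) by ring, Real.exp_add]
      ring)) h4)) (a1 s) (a2 s) (a3 s) d hd
  choose f hf using b1
  refine ⟨κ, by linarith, fun x i => f i.1 i.2 x, fun x y => ?_⟩
  rcases eq_or_ne x y with rfl | hxy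
  · simp [Real.zero_rpow hp0.ne']
  have c0 : 0 < D x y ^ p := Real.rpow_pos_of_pos (hD0 x y hxy) p
  have c1 : ∑ i : Fin (Λ + 2 * J + 1) × Fin d, |f i.1 i.2 x - f i.1 i.2 y| ^ p
      = (∑ s, ∑ k, |W s k (x, y)| ^ p) * D x y ^ p := by
    rw [Fintype.sum_prod_type, Finset.sum_mul]
    refine Finset.sum_congr rfl fun s _ => ?_
    rw [Finset.sum_mul]
    refine Finset.sum_congr rfl fun k _ => ?_
    rw [← hf s k]
    exact ((eq_div_iff c0.ne').1 (hgr _ x y hxy)).symm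
  obtain ⟨c2, c3⟩ := a4 (x, y) ((hu1 _).trans (hone x y hxy))
  have c4 := (Finset.abs_sum_le_sum_abs _ _).trans (Finset.sum_le_sum fun s (_ : s ∈ univ) =>
    b2 s (x, y))
  simp only [Finset.sum_sub_distrib, ← Finset.sum_div, Finset.sum_add_distrib, sum_const, card_univ,
    Fintype.card_fin, nsmul_eq_mul, Ex] at c4
  rw [c1, ← hDp]
  have c5 : 0 ≤ ∑ s, ∑ ω, π' ω * |U s ω (x, y)| ^ p := Finset.sum_nonneg fun s _ =>
    Finset.sum_nonneg fun ω _ => mul_nonneg (h'.1 ω) (by positivity)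
  generalize ∑ s, ∑ ω, π' ω * |U s ω (x, y)| ^ p = V at c2 c3 c4 c5
  have c6 : (V + ((Λ + 2 * J + 1 : ℕ) : ℝ) * 4) / R ≤ ε * V + ε * κ := by
    rw [div_le_iff₀ hR0]
    push_cast
    have : (0 : ℝ) ≤ Λ + 2 * J := by positivity
    have d1 := mul_le_mul_of_nonneg_left (by linarith : 1 ≤ ε * R) c5
    have d2 := mul_le_mul_of_nonneg_left hκ (by positivity : 0 ≤ ε * R)
    linarith
  obtain ⟨c7, c8⟩ := abs_le.1 (c4.trans c6)
  have c9 := mul_le_mul_of_nonneg_left c2 (by linarith : 0 ≤ 1 - ε)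
  have c10 := mul_le_mul_of_nonneg_left c3 (by linarith : 0 ≤ 1 + ε)
  exact ⟨mul_le_mul_of_nonneg_right (by linarith) c0.le,
    mul_le_mul_of_nonneg_right (by linarith) c0.le⟩

end Vale.Agent.P249
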