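import Mathlib

open MeasureTheory

namespace Vale.Agent.P249

universe u

/-- the norm of `ℓ_p^d` -/
noncomputable def lpNorm (p : ℝ) {d : ℕ} (y : Fin d → ℝ) : ℝ := (∑ k, |y k| ^ p) ^ (1 / p)

/-- every `n`-point subset of every `L_p(μ)` maps into `ℓ_p^d` with distortion at most `D` -/
def Embeds (p : ℝ) (n : ℕ) (D : ℝ) (d : ℕ) : Prop :=
  ∀ (α : Type u) [MeasurableSpace α] (μ : Measure α) (X : Finset (Lp ℝ (ENNReal.ofReal p) μ)),
    X.card = n → ∃ (f : Lp ℝ (ENNReal.ofReal p) μ → Fin d → ℝ) (s : ℝ), 0 < s ∧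
      ∀ x ∈ X, ∀ x' ∈ X, s * ‖x - x'‖ ≤ lpNorm p (f x - f x') ∧
        lpNorm p (f x - f x') ≤ D * s * ‖x - x'‖

/-- the least such dimension -/
noncomputable def dp (p : ℝ) (n : ℕ) (D : ℝ) : ℕ := sInf {d | Embeds.{u} p n D d}

end Vale.Agent.P249
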