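import Vale.Agent.P249.Merge

/-! Reduction to finite probability spaces. -/

open Finset MeasureTheory Filter Topology

namespace Vale.Agent.P249

lemma reduce {α : Type*} [MeasurableSpace α] {μ : Measure α} {p : ℝ} (hp : 1 ≤ p) {X : Type}
    [Fintype X] (x : X → Lp ℝ (ENNReal.ofReal p) μ) (hx : Function.Injective x) {ε : ℝ}
    (hε : 0 < ε) : ∃ (Ω : Type) (_ : Fintype Ω) (π : Ω → ℝ) (g : Ω → X → ℝ), Prob π ∧ ∀ i j,
      abs (∑ ω, π ω * |g ω i - g ω j| ^ p - ‖x i - x j‖ ^ p) ≤ ε * ‖x i - x j‖ ^ p := by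
  classical
  have hp0 : 0 < p := by linarith
  have : Fact (1 ≤ ENNReal.ofReal p) := ⟨by simpa using hp⟩
  have hne : ENNReal.ofReal p ≠ 0 := by simpa using hp0
  have hint : ∀ i j, Integrable (fun a => |x i a - x j a| ^ p) μ ∧
      ‖x i - x j‖ ^ p = ∫ a, |x i a - x j a| ^ p ∂μ := fun i j => by
    have hae : (fun a => ‖(x i - x j) a‖ ^ (ENNReal.ofReal p).toReal)
        =ᵐ[μ] fun a => |x i a - x j a| ^ p := by
      filter_upwards [Lp.coeFn_sub (x i) (x j)] with a ha
      rw [ha, ENNReal.toReal_ofReal hp0.le]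
      rfl
    refine ⟨((Lp.memLp (x i - x j)).integrable_norm_rpow hne ENNReal.ofReal_ne_top).congr hae, ?_⟩
    have h0 : 0 ≤ ∫ a, |x i a - x j a| ^ p ∂μ := integral_nonneg fun a => by positivity
    rw [Lp.norm_def, (Lp.memLp (x i - x j)).eLpNorm_eq_integral_rpow_norm hne ENNReal.ofReal_ne_top,
      integral_congr_ae hae, ENNReal.toReal_ofReal (Real.rpow_nonneg h0 _),
      ENNReal.toReal_ofReal hp0.le, Real.rpow_inv_rpow h0 hp0.ne']
  have hcl : (fun e : X × X => ‖x e.1 - x e.2‖ ^ p) ∈ closure (convexHull ℝ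
      (Set.range fun (a : X → ℝ) (e : X × X) => |a e.1 - a e.2| ^ p)) := by
    by_contra hn
    obtain ⟨f, r, h1, h2⟩ := geometric_hahn_banach_point_closed (convex_convexHull ℝ _).closure
      isClosed_closure hn
    have h3 := fun a : X → ℝ => h2 _ (subset_closure (subset_convexHull ℝ _ ⟨a, rfl⟩))
    set l : X × X → ℝ := fun e => f fun j => if e = j then 1 else 0 with hl
    have hf : ∀ a, f a = ∑ e, a e * l e := fun a => f.toLinearMap.pi_apply_eq_sum_univ a
    simp only [hf] at h1 h3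
    have hr : r < 0 := by simpa [Real.zero_rpow hp0.ne'] using h3 0
    have h4 : ∀ a : X → ℝ, 0 ≤ ∑ e : X × X, |a e.1 - a e.2| ^ p * l e := fun a => by
      by_contra hneg
      have hneg := not_le.1 hneg
      have h6 : 0 ≤ r / ∑ e : X × X, |a e.1 - a e.2| ^ p * l e :=
        div_nonneg_of_nonpos hr.le hneg.le
      have h5 := h3 fun i => (r / ∑ e : X × X, |a e.1 - a e.2| ^ p * l e) ^ p⁻¹ * a i
      simp only [← mul_sub, abs_mul, abs_of_nonneg (Real.rpow_nonneg h6 _),
        Real.mul_rpow (Real.rpow_nonneg h6 _) (abs_nonneg _), Real.rpow_inv_rpow h6 hp0.ne',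
        mul_assoc, ← Finset.mul_sum, div_mul_cancel₀ _ hneg.ne] at h5
      exact lt_irrefl _ h5
    simp only [(hint _ _).2, ← integral_mul_const] at h1
    rw [← integral_finsetSum _ fun e _ => (hint e.1 e.2).1.mul_const _] at h1
    have := integral_nonneg (μ := μ) (f := fun a => ∑ e : X × X, |x e.1 a - x e.2 a| ^ p * l e)
      fun a => h4 fun i => x i a
    linarith
  obtain ⟨η, hη, hη0⟩ : ∃ η, (∀ e : X × X, e.1 ≠ e.2 → η < ε * ‖x e.1 - x e.2‖ ^ p) ∧ 0 < η := by
    refine (Eventually.and (f := 𝓝[>] (0 : ℝ)) (eventually_all.2 fun e => ?_)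
      self_mem_nhdsWithin).exists
    by_cases he : e.1 = e.2
    · simp [he]
    · have : 0 < ‖x e.1 - x e.2‖ := norm_pos_iff.2 (sub_ne_zero.2 fun h => he (hx h))
      filter_upwards [nhdsWithin_le_nhds
        (Iio_mem_nhds (by positivity : 0 < ε * ‖x e.1 - x e.2‖ ^ p))] with η h _ using h
  obtain ⟨b, hb, hd⟩ := Metric.mem_closure_iff.1 hcl η hη0
  obtain ⟨Ω, _, π, z, h1, h2, h3, rfl⟩ := mem_convexHull_iff_exists_fintype.1 hb
  choose g hg using h3
  refine ⟨Ω, inferInstance, π, g, ⟨h1, h2⟩, fun i j => ?_⟩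
  rcases eq_or_ne i j with rfl | hij
  · simp [Real.zero_rpow hp0.ne']
  · have := ((dist_le_pi_dist _ _ (i, j)).trans hd.le).trans (hη (i, j) hij).le
    simpa [Real.dist_eq, abs_sub_comm, ← hg] using this

end Vale.Agent.P249
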