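import Vale.Agent.P249.Defs
import Vale.Agent.P249.Core
import Vale.Agent.P249.Reduce

/-! Choice of parameters and the final bound. -/

open Finset MeasureTheory Filter Topology

namespace Vale.Agent.P249

universe u

def Sm (θ : ℝ) (f : ℕ → ℝ) : Prop :=
  ∃ C, ∀ n ≥ 2, 0 ≤ f n ∧ f n ≤ Real.exp (C * Real.log n ^ θ)

section
variable {θ : ℝ} {f g : ℕ → ℝ}

lemma log_two_le {n : ℕ} (hn : n ≥ 2) : 1 / 2 ≤ Real.log n := by
  have : (2 : ℝ) ≤ n := by exact_mod_cast hn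
  linarith [Real.log_two_gt_d9, Real.log_le_log two_pos this]

lemma Sm.mono (hg : Sm θ g) (h : ∀ n ≥ 2, 0 ≤ f n ∧ f n ≤ g n) : Sm θ f :=
  let ⟨C, hC⟩ := hg
  ⟨C, fun n hn => ⟨(h n hn).1, (h n hn).2.trans (hC n hn).2⟩⟩

lemma Sm.mul (hf : Sm θ f) (hg : Sm θ g) : Sm θ fun n => f n * g n :=
  let ⟨C, hC⟩ := hf
  let ⟨D, hD⟩ := hg
  ⟨C + D, fun n hn => ⟨mul_nonneg (hC n hn).1 (hD n hn).1, by
    rw [add_mul, Real.exp_add]
    exact mul_le_mul (hC n hn).2 (hD n hn).2 (hD n hn).1 (Real.exp_pos _).le⟩⟩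

lemma Sm.exp (hθ : 0 < θ) (a b : ℝ) (hb : 0 ≤ b) :
    Sm θ fun n => Real.exp (a * Real.log n ^ θ + b) :=
  ⟨a + b / (1 / 2) ^ θ, fun n hn => ⟨(Real.exp_pos _).le, Real.exp_le_exp.2 (by
    have h1 := Real.rpow_le_rpow (by norm_num) (log_two_le hn) hθ.le
    have h2 : (0 : ℝ) < (1 / 2) ^ θ := by positivity
    have := mul_le_mul_of_nonneg_left h1 (div_nonneg hb h2.le)
    rw [div_mul_cancel₀ _ h2.ne'] at this
    linarith)⟩⟩

lemma Sm.const (hθ : 0 < θ) {c : ℝ} (hc : 0 ≤ c) : Sm θ fun _ => c :=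
  (Sm.exp hθ 0 c hc).mono fun n _ => ⟨hc, by
    rw [zero_mul, zero_add]; linarith [Real.add_one_le_exp c]⟩

lemma Sm.add (hθ : 0 < θ) (hf : Sm θ f) (hg : Sm θ g) : Sm θ fun n => f n + g n :=
  let ⟨C, hC⟩ := hf
  let ⟨D, hD⟩ := hg
  ((Sm.const hθ zero_le_two).mul (Sm.exp hθ (max C D) 0 le_rfl)).mono fun n hn =>
    ⟨add_nonneg (hC n hn).1 (hD n hn).1, by
      have h0 : 0 ≤ Real.log n ^ θ := Real.rpow_nonneg (Real.log_natCast_nonneg n) _
      have h1 := Real.exp_le_exp.2 (mul_le_mul_of_nonneg_right (le_max_left C D) h0)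
      have h2 := Real.exp_le_exp.2 (mul_le_mul_of_nonneg_right (le_max_right C D) h0)
      rw [add_zero]
      linarith [(hC n hn).2, (hD n hn).2]⟩

lemma Sm.rpow (hf : Sm θ f) {c : ℝ} (hc : 0 ≤ c) : Sm θ fun n => f n ^ c :=
  let ⟨C, hC⟩ := hf
  ⟨C * c, fun n hn => ⟨Real.rpow_nonneg (hC n hn).1 _, by
    rw [mul_right_comm, Real.exp_mul]
    exact Real.rpow_le_rpow (hC n hn).1 (hC n hn).2 hc⟩⟩

lemma Sm.log (hθ : 0 < θ) : Sm θ fun n => Real.log n :=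
  ⟨1 / θ, fun n hn => ⟨Real.log_natCast_nonneg n, by
    rw [← Real.log_le_iff_le_exp (by linarith [log_two_le hn]), one_div_mul_eq_div]
    exact Real.log_le_rpow_div (Real.log_natCast_nonneg n) hθ⟩⟩

end

lemma params {θ p K c R₀ ε : ℝ} (hθ : 0 < θ) (hp : 0 < p) (hK : 0 < K) (hc : 0 < c) (hR₀ : 0 < R₀)
    (hε : 0 < ε) : ∃ C, ∀ n : ℕ, n ≥ 2 → ∃ (R : ℝ) (J Λ d : ℕ),
      K * (12 * Real.log n + 1) ^ θ ≤ ε * J ∧ 1 + (n : ℝ) ^ 2 ≤ Real.exp Λ ∧ R₀ ≤ R ∧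
      2 * (n : ℝ) ^ 2 ≤ Real.exp R ∧
      9 * (12 * Real.log n + 1) * Real.exp (Λ + 2 * J) ≤ Real.exp R ∧ p * Λ ≤ R ∧
      2 * (9 * (12 * Real.log n + 1)) ^ p * Real.exp (2 * p * J) ≤ R ∧
      4 * (Λ + 2 * J + 1) ≤ ε * R ∧ R ^ c ≤ d ∧
      (((Λ + 2 * J + 1) * d : ℕ) : ℝ) ≤ Real.exp (C * Real.log n ^ θ) := by
  set J : ℕ → ℕ := fun n => ⌈K * (12 * Real.log n + 1) ^ θ / ε⌉₊ with hJ
  set Λ : ℕ → ℕ := fun n => ⌈3 * Real.log n⌉₊ with hΛ
  set R : ℕ → ℝ := fun n => R₀ + 9 * (12 * Real.log n + 1) + (Λ n + 2 * J n + 1) + p * Λ n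
    + 2 * (9 * (12 * Real.log n + 1)) ^ p * Real.exp (J n) ^ (2 * p)
    + 4 / ε * (Λ n + 2 * J n + 1) with hR
  have hl := Real.log_natCast_nonneg
  have s1 : Sm θ fun n => 9 * (12 * Real.log n + 1) := (Sm.const hθ (by norm_num)).mul
    (((Sm.const hθ (by norm_num)).mul (Sm.log hθ)).add hθ (Sm.const hθ zero_le_one))
  have s2 : Sm θ fun n => Real.exp (J n) := (Sm.exp hθ (K * 14 ^ θ / ε) 1 zero_le_one).mono
    fun n hn => ⟨(Real.exp_pos _).le, Real.exp_le_exp.2 (by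
      have := hl n
      refine (Nat.ceil_lt_add_one (by positivity)).le.trans (add_le_add_left ?_ _)
      rw [div_mul_eq_mul_div, mul_assoc, ← Real.mul_rpow (by norm_num) this]
      exact div_le_div_of_nonneg_right (mul_le_mul_of_nonneg_left (Real.rpow_le_rpow
        (by positivity) (by linarith [log_two_le hn]) hθ.le) hK.le) hε.le)⟩
  have s3 : Sm θ fun n => (J n : ℝ) := s2.mono fun n _ =>
    ⟨Nat.cast_nonneg _, by linarith [Real.add_one_le_exp (J n)]⟩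
  have s4 : Sm θ fun n => (Λ n : ℝ) := s1.mono fun n _ => ⟨Nat.cast_nonneg _, by
    have := hl n
    exact (Nat.ceil_lt_add_one (by positivity)).le.trans (by linarith)⟩
  have s5 : Sm θ fun n => (Λ n + 2 * J n + 1 : ℝ) :=
    (s4.add hθ ((Sm.const hθ zero_le_two).mul s3)).add hθ (Sm.const hθ zero_le_one)
  have s6 : Sm θ R := (((((Sm.const hθ hR₀.le).add hθ s1).add hθ s5).add hθ
    ((Sm.const hθ hp.le).mul s4)).add hθ (((Sm.const hθ zero_le_two).mul (s1.rpow hp.le)).mul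
      (s2.rpow (by positivity)))).add hθ ((Sm.const hθ (by positivity)).mul s5)
  obtain ⟨C, hC⟩ := s5.mul ((s6.rpow hc.le).add hθ (Sm.const hθ zero_le_one))
  refine ⟨C, fun n hn => ?_⟩
  have h2 : (2 : ℝ) ≤ n := by exact_mod_cast hn
  have h3 : Real.exp (3 * Real.log n) = n ^ 3 := by
    rw [mul_comm, Real.exp_mul, Real.exp_log (by linarith), Real.rpow_ofNat]
  have := hl n
  have a1 : 0 ≤ 9 * (12 * Real.log n + 1) := by positivity
  have a2 : (0 : ℝ) ≤ Λ n + 2 * J n := by positivity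
  have a3 : 0 ≤ p * Λ n := by positivity
  have a4 : 0 ≤ 2 * (9 * (12 * Real.log n + 1)) ^ p * Real.exp (J n) ^ (2 * p) := by positivity
  have a5 : 0 ≤ 4 / ε * (Λ n + 2 * J n + 1) := by positivity
  have a6 : R n = R₀ + 9 * (12 * Real.log n + 1) + (Λ n + 2 * J n + 1) + p * Λ n
    + 2 * (9 * (12 * Real.log n + 1)) ^ p * Real.exp (J n) ^ (2 * p)
    + 4 / ε * (Λ n + 2 * J n + 1) := rfl
  refine ⟨R n, J n, Λ n, ⌈R n ^ c⌉₊, (div_le_iff₀' hε).1 (Nat.le_ceil _), ?_, by linarith, ?_, ?_,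
    by linarith, ?_, ?_, Nat.le_ceil _, le_trans ?_ (hC n hn).2⟩
  · refine le_trans ?_ (Real.exp_le_exp.2 (Nat.le_ceil _))
    rw [h3]; nlinarith
  · refine le_trans ?_ (Real.exp_le_exp.2 (by linarith : 3 * Real.log n ≤ _))
    rw [h3]; nlinarith
  · have := Real.add_one_le_exp (9 * (12 * Real.log n + 1))
    refine (mul_le_mul_of_nonneg_right (by linarith : _ ≤ Real.exp (9 * (12 * Real.log n + 1)))
      (Real.exp_pos _).le).trans ?_
    rw [← Real.exp_add]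
    exact Real.exp_le_exp.2 (by linarith)
  · rw [mul_comm (2 * p), Real.exp_mul]; linarith
  · rw [← div_le_iff₀' hε, mul_div_right_comm]; linarith
  · push_cast
    exact mul_le_mul_of_nonneg_left (Nat.ceil_lt_add_one (Real.rpow_nonneg (by linarith) _)).le
      (by linarith)

lemma eps {p D : ℝ} (hp : 0 < p) (hD : 1 < D) : ∃ ε : ℝ, (ε < 1 ∧ 0 < (1 - ε) * (1 - ε) ^ p - ε ∧
    ((1 + ε) * (1 + ε) ^ p + ε) * (1 + ε) < D ^ p * (((1 - ε) * (1 - ε) ^ p - ε) * (1 - ε))) ∧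
    0 < ε := by
  have c1 : Continuous fun ε : ℝ => (1 - ε) ^ p :=
    (continuous_const.sub continuous_id).rpow_const fun _ => Or.inr hp.le
  have c2 : Continuous fun ε : ℝ => (1 + ε) ^ p :=
    (continuous_const.add continuous_id).rpow_const fun _ => Or.inr hp.le
  refine (Eventually.and (f := 𝓝[>] (0 : ℝ)) (Eventually.filter_mono nhdsWithin_le_nhds
    (Eventually.and ?_ (Eventually.and ?_ ?_))) self_mem_nhdsWithin).exists
  · exact Iio_mem_nhds one_pos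
  · exact ContinuousAt.eventually_lt continuousAt_const (by fun_prop) (by simp)
  · exact ContinuousAt.eventually_lt (by fun_prop) (by fun_prop)
      (by simpa using Real.one_lt_rpow hD hp)

theorem embeds {p D : ℝ} (hp : 1 < p) (hp2 : p ≠ 2) (hD : 1 < D) : ∃ C, ∀ n : ℕ, n ≥ 2 → ∃ m : ℕ,
    Embeds.{u} p n D m ∧ (m : ℝ) ≤ Real.exp (C * Real.log n ^ |1 - 2 / p|) := by
  classical
  have hp0 : 0 < p := by linarith
  have hθ : 0 < |1 - 2 / p| := abs_pos.2 fun h => hp2 (by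
    have : 2 / p = 1 := by linarith
    rw [div_eq_one_iff_eq hp0.ne'] at this
    exact this.symm)
  obtain ⟨K, hK, c, hc, R₀, hR₀, hcore⟩ := core hp hp2
  obtain ⟨ε, ⟨e1, e2, e3⟩, e0⟩ := eps hp0 hD
  obtain ⟨C, hC⟩ := params hθ hp0 hK hc hR₀ e0
  refine ⟨C, fun n hn => ?_⟩
  obtain ⟨R, J, Λ, d, a1, a2, a3, a4, a5, a6, a7, a8, a9, a10⟩ := hC n hn
  refine ⟨_, fun α _ μ X hX => ?_, a10⟩
  have : Nonempty (Fin n) := ⟨⟨0, by omega⟩⟩
  have : Fact (1 ≤ ENNReal.ofReal p) := ⟨by simpa using hp.le⟩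
  let φ := X.equivFinOfCardEq hX
  have hinj : Function.Injective fun i => (φ.symm i).1 :=
    Subtype.val_injective.comp φ.symm.injective
  obtain ⟨Ω, _, π, g, h, hg⟩ := reduce hp.le (fun i => (φ.symm i).1) hinj e0
  obtain ⟨κ, hκ, f, hf⟩ := hcore (Fin n) Ω π g ε R _ n J Λ d h (fun i j hij => by
    have : 0 < ‖(φ.symm i).1 - (φ.symm j).1‖ ^ p :=
      Real.rpow_pos_of_pos (norm_pos_iff.2 (sub_ne_zero.2 fun h => hij (hinj h))) p
    nlinarith [(abs_le.1 (hg i j)).1]) (by simp) rfl e0 e1.le a1 a2 a3 a4 a5 a6 a7 a8 a9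
  have e4 : 0 < (1 + ε) * (1 + ε) ^ p + ε := by positivity
  generalize (1 - ε) * (1 - ε) ^ p - ε = lo at e2 e3 hf
  generalize (1 + ε) * (1 + ε) ^ p + ε = hi at e3 e4 hf
  have hs : 0 < lo * (1 - ε) * κ := mul_pos (mul_pos e2 (by linarith)) hκ
  refine ⟨fun y k => if hy : y ∈ X then f (φ ⟨y, hy⟩) (finProdFinEquiv.symm k) else 0,
    (lo * (1 - ε) * κ) ^ (1 / p), by positivity, fun x hx y hy => ?_⟩
  obtain ⟨b1, b2⟩ := hf (φ ⟨x, hx⟩) (φ ⟨y, hy⟩)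
  obtain ⟨b3, b4⟩ := abs_le.1 (hg (φ ⟨x, hx⟩) (φ ⟨y, hy⟩))
  simp only [Equiv.symm_apply_apply] at b3 b4
  simp only [lpNorm, Pi.sub_apply, dif_pos hx, dif_pos hy]
  rw [Equiv.sum_comp finProdFinEquiv.symm fun i => |f (φ ⟨x, hx⟩) i - f (φ ⟨y, hy⟩) i| ^ p]
  have b0 : 0 ≤ ‖x - y‖ ^ p := by positivity
  have inv : ∀ z : ℝ, 0 ≤ z → (z ^ p) ^ (1 / p) = z := fun z hz => by
    rw [one_div, Real.rpow_rpow_inv hz hp0.ne']
  constructor
  · rw [← inv _ (norm_nonneg (x - y)), ← Real.mul_rpow hs.le b0]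
    refine Real.rpow_le_rpow (by positivity) (le_trans ?_ b1) (by positivity)
    have := mul_le_mul_of_nonneg_left b3 (mul_pos e2 hκ).le
    linarith
  · rw [← inv _ (norm_nonneg (x - y)), ← inv D (by linarith),
      ← Real.mul_rpow (by positivity) hs.le, ← Real.mul_rpow (by positivity) b0]
    refine Real.rpow_le_rpow (Finset.sum_nonneg fun _ _ => by positivity) (b2.trans ?_)
      (by positivity)
    have := mul_le_mul_of_nonneg_left b4 (mul_pos e4 hκ).le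
    have := mul_le_mul_of_nonneg_right e3.le (mul_nonneg hκ.le b0)
    linarith

end Vale.Agent.P249
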