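import Vale.Agent.P249.Markov

/-! Localization of electrical flows. -/

open Finset

namespace Vale.Agent.P249

variable {X : Type*} [Fintype X]

noncomputable def grad (d : X → X → ℝ) (g : X → ℝ) (e : X × X) : ℝ := (g e.1 - g e.2) / d e.1 e.2

noncomputable def dv (d : X → X → ℝ) (w u : X × X → ℝ) (x : X) : ℝ :=
  ∑ y, w (x, y) * (u (x, y) - u (y, x)) / d x y

variable {d : X → X → ℝ} {w : X × X → ℝ}

lemma dv_adj (hds : ∀ x y, d x y = d y x) (hws : ∀ x y, w (x, y) = w (y, x)) (u : X × X → ℝ)
    (h : X → ℝ) : ∑ e, w e * (u e * grad d h e) = ∑ x, h x * dv d w u x := by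
  unfold grad dv
  rw [Fintype.sum_prod_type]
  have e1 : ∀ x y, w (x, y) * (u (x, y) * ((h x - h y) / d x y))
      = h x * (w (x, y) * u (x, y) / d x y) - h y * (w (y, x) * u (x, y) / d y x) := fun x y => by
    rw [hds y x, hws y x]; ring
  simp only [e1, Finset.sum_sub_distrib]
  rw [Finset.sum_comm (f := fun x y => h y * (w (y, x) * u (x, y) / d y x)),
    ← Finset.sum_sub_distrib]
  refine Finset.sum_congr rfl fun x _ => ?_
  rw [Finset.mul_sum, ← Finset.sum_sub_distrib]
  exact Finset.sum_congr rfl fun y _ => by ring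

lemma dv_grad (hds : ∀ x y, d x y = d y x) (g : X → ℝ) (x : X) :
    dv d w (grad d g) x = 2 * ∑ y, w (x, y) / d x y ^ 2 * (g x - g y) := by
  unfold dv grad
  rw [Finset.mul_sum]
  refine Finset.sum_congr rfl fun y _ => ?_
  simp only [hds y x]; ring

omit [Fintype X] in
lemma grad_sum {ι : Type*} (s : Finset ι) (c : ι → ℝ) (g : ι → X → ℝ) (e : X × X) :
    grad d (fun x => ∑ i ∈ s, c i * g i x) e = ∑ i ∈ s, c i * grad d (g i) e := by
  unfold grad
  rw [← Finset.sum_sub_distrib, Finset.sum_div]
  exact Finset.sum_congr rfl fun i _ => by ring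

lemma abs_grad_sum (hw : ∀ e, 0 < w e) (hws : ∀ x y, w (x, y) = w (y, x)) {q : X → ℝ}
    (hq : ∀ x, 0 ≤ q x) (hq1 : ∑ x, (∑ y, w (x, y)) * q x = 1) :
    (∑ e, w e * |grad d q e|) ^ 2 ≤ 4 * ∑ e, w e * (grad d (fun x => √(q x)) e) ^ 2 := by
  have e1 : ∀ e, w e * |grad d q e| = (√(w e) * |grad d (fun x => √(q x)) e|) *
      (√(w e) * (√(q e.1) + √(q e.2))) := fun e => by
    have a1 : grad d q e = grad d (fun x => √(q x)) e * (√(q e.1) + √(q e.2)) := by
      unfold grad
      have b1 := Real.sq_sqrt (hq e.1)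
      have b2 := Real.sq_sqrt (hq e.2)
      rw [div_mul_eq_mul_div]
      congr 1
      linarith
    rw [a1, abs_mul, abs_of_nonneg (by positivity : 0 ≤ √(q e.1) + √(q e.2))]
    nth_rewrite 1 [← Real.mul_self_sqrt (hw e).le]
    ring
  simp only [e1]
  refine (Finset.sum_mul_sq_le_sq_mul_sq _ _ _).trans ?_
  rw [mul_comm]
  refine mul_le_mul ?_ (le_of_eq ?_) (Finset.sum_nonneg fun _ _ => sq_nonneg _) (by norm_num)
  · have a1 : ∑ e : X × X, w e * q e.1 = 1 := by
      rw [Fintype.sum_prod_type, ← hq1]
      simp only [Finset.sum_mul]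
    have a2 : ∑ e : X × X, w e * q e.2 = 1 := by
      rw [Fintype.sum_prod_type_right, ← hq1]
      simp only [Finset.sum_mul, hws]
    calc _ ≤ ∑ e : X × X, (2 * (w e * q e.1) + 2 * (w e * q e.2)) :=
          Finset.sum_le_sum fun e _ => by
            rw [mul_pow, Real.sq_sqrt (hw e).le]
            have b1 := Real.sq_sqrt (hq e.1)
            have b2 := Real.sq_sqrt (hq e.2)
            have b3 : (√(q e.1) + √(q e.2)) ^ 2 ≤ 2 * q e.1 + 2 * q e.2 := by
              nlinarith [sq_nonneg (√(q e.1) - √(q e.2))]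
            have := mul_le_mul_of_nonneg_left b3 (hw e).le
            linarith
      _ = 4 := by
          rw [Finset.sum_add_distrib, ← Finset.mul_sum, ← Finset.mul_sum, a1, a2]; norm_num
  · exact Finset.sum_congr rfl fun e _ => by rw [mul_pow, Real.sq_sqrt (hw e).le, sq_abs]

theorem exists_flow [Nonempty X] (hds : ∀ x y, d x y = d y x) (hd : ∀ x y, x ≠ y → 0 < d x y)
    (hw : ∀ e, 0 < w e) (hws : ∀ x y, w (x, y) = w (y, x)) (hw1 : ∑ e, w e = 1) :
    ∃ Pot : X × X → X → ℝ,
      (∀ g e, ∑ e', grad d g e' * grad d (Pot e') e = grad d g e) ∧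
      (∀ u : X × X → ℝ,
        ∑ e, w e * (∑ e', u e' * grad d (Pot e') e - u e) ^ 2 ≤ ∑ e, w e * u e ^ 2) ∧
      ∑ e, w e * ∑ e', |grad d (Pot e') e| ≤ 12 * Real.log (Fintype.card X) := by
  classical
  let π : X → ℝ := fun x => ∑ y, w (x, y)
  have hπ : ∀ x, 0 < π x := fun x => Finset.sum_pos (fun y _ => hw _) Finset.univ_nonempty
  let a : X → X → ℝ := fun x y => w (x, y) / d x y ^ 2
  have ha : ∀ x y, 0 ≤ a x y := fun x y => div_nonneg (hw _).le (sq_nonneg _)
  let S : ℝ := ∑ x, (∑ y, a x y) / π x
  have hS : ∀ x, (∑ y, a x y) / π x ≤ S := fun x =>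
    Finset.single_le_sum (f := fun x => (∑ y, a x y) / π x)
      (fun x _ => div_nonneg (Finset.sum_nonneg fun y _ => ha x y) (hπ x).le) (mem_univ x)
  have hS0 : 0 ≤ S := Finset.sum_nonneg fun x _ =>
    div_nonneg (Finset.sum_nonneg fun y _ => ha x y) (hπ x).le
  let δ : ℝ := 1 / (2 * (S + 1))
  have hδ : 0 < δ := by positivity
  have hδS : δ * S ≤ 1 / 2 := by
    simp only [δ]
    rw [div_mul_eq_mul_div, div_le_div_iff₀ (by positivity) (by norm_num)]
    linarith
  let P : X → X → ℝ := fun x y =>
    (if x = y then 1 - δ * ((∑ z, a x z) / π x) else 0) + δ * (a x y / π x)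
  have hact : ∀ g x, act P g x = g x - δ / π x * ∑ y, a x y * (g x - g y) := fun g x => by
    simp only [act, P, add_mul, Finset.sum_add_distrib, ite_mul, zero_mul, Finset.sum_ite_eq,
      mem_univ, if_true, mul_sub, Finset.sum_sub_distrib, ← Finset.sum_mul]
    rw [Finset.mul_sum]
    have : ∑ y, δ * (a x y / π x) * g y = ∑ y, δ / π x * (a x y * g y) :=
      Finset.sum_congr rfl fun y _ => by ring
    rw [this]; ring
  have hlazy : ∀ x, 1 / 2 ≤ P x x := fun x => by
    have a1 := mul_le_mul_of_nonneg_left (hS x) hδ.le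
    have a2 := mul_nonneg hδ.le (div_nonneg (ha x x) (hπ x).le)
    simp only [P, if_true]; linarith
  have hC : Chain P π := by
    refine ⟨fun x y => ?_, fun x => ?_, fun x y => ?_, hlazy, hπ, ?_⟩
    · by_cases hxy : x = y
      · subst hxy; linarith [hlazy x]
      · simp only [P, hxy, if_false, zero_add]
        exact mul_pos hδ (div_pos (div_pos (hw _) (pow_pos (hd x y hxy) 2)) (hπ x))
    · simpa [act] using hact (fun _ => 1) x
    · by_cases hxy : x = y
      · rw [hxy]
      · have b1 := (hπ x).ne'
        have b2 := (hπ y).ne'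
        simp only [P, hxy, Ne.symm hxy, if_false, zero_add, a, hds y x, hws y x]
        field_simp
    · rw [← hw1, Fintype.sum_prod_type]
  have hact' : ∀ g x, act P g x = g x - δ / (2 * π x) * dv d w (grad d g) x := fun g x => by
    have := (hπ x).ne'
    rw [hact, dv_grad hds]; simp only [a]; field_simp
  let H : X × X → X → ℝ := fun e' x => δ / (2 * π x) * dv d w (Pi.single e' 1) x
  have hH : ∀ e' (q : X → ℝ), ∑ x, π x * (q x * H e' x) = δ / 2 * (w e' * grad d q e') := by
    intro e' q
    have e1 : ∀ x, π x * (q x * H e' x) = δ / 2 * (q x * dv d w (Pi.single e' 1) x) := fun x => by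
      have := (hπ x).ne'
      simp only [H]; field_simp
    simp only [e1]
    rw [← Finset.mul_sum, ← dv_adj hds hws, Finset.sum_eq_single e']
    · simp
    · intro e _ he; simp [he]
    · simp
  choose Pot hPot using fun e' => hC.solve (H e') (by simpa [grad] using hH e' fun _ => 1)
  have hdv : ∀ u : X × X → ℝ, ∀ x,
      dv d w (grad d fun x => ∑ e', u e' * Pot e' x) x = dv d w u x := by
    intro u x
    have b1 : ∀ e', dv d w (grad d (Pot e')) x = dv d w (Pi.single e' 1) x := fun e' => by
      have b2 := congrFun (hPot e') x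
      rw [Pi.add_apply, hact'] at b2
      have b3 : 0 < δ / (2 * π x) := by have := hπ x; positivity
      exact mul_left_cancel₀ b3.ne' (by simp only [H] at b2; linarith)
    have b4 : ∀ f : X × X → X × X → ℝ, dv d w (fun e => ∑ e', u e' * f e' e) x
        = ∑ e', u e' * dv d w (f e') x := fun f => by
      unfold dv
      simp only [Finset.mul_sum]
      rw [Finset.sum_comm]
      refine Finset.sum_congr rfl fun y _ => ?_
      rw [← Finset.sum_sub_distrib, Finset.mul_sum, Finset.sum_div]
      exact Finset.sum_congr rfl fun e' _ => by ring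
    have b5 : (grad d fun x => ∑ e', u e' * Pot e' x) = fun e => ∑ e', u e' * grad d (Pot e') e :=
      funext fun e => grad_sum _ _ _ e
    rw [b5, b4]
    simp only [b1]
    rw [← b4]
    congr 1
    funext e
    rw [Finset.sum_eq_single e]
    · simp
    · intro e' _ he; simp [Ne.symm he]
    · simp
  refine ⟨Pot, fun g e => ?_, fun u => ?_, ?_⟩
  · rw [← grad_sum]
    have b1 : act P ((fun x => ∑ e', grad d g e' * Pot e' x) - g)
        = (fun x => ∑ e', grad d g e' * Pot e' x) - g := by
      funext x
      have b2 := hact' (fun x => ∑ e', grad d g e' * Pot e' x) x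
      have b3 := hact' g x
      rw [hdv] at b2
      have b4 := congrFun (act_add (P := P) ((fun x => ∑ e', grad d g e' * Pot e' x) - g) g) x
      rw [sub_add_cancel, Pi.add_apply] at b4
      simp only [Pi.sub_apply]; linarith
    have b5 := hC.harmonic b1 e.1 e.2
    simp only [Pi.sub_apply] at b5
    unfold grad at b5 ⊢
    congr 1; linarith
  · simp only [← grad_sum]
    set g : X → ℝ := fun x => ∑ e', u e' * Pot e' x with hg
    have b1 : ∑ e, w e * (u e * grad d g e) = ∑ e, w e * (grad d g e * grad d g e) := by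
      rw [dv_adj hds hws, dv_adj hds hws]
      simp only [hg, hdv]
    have b2 : ∑ e, w e * (grad d g e - u e) ^ 2 = ∑ e, w e * (grad d g e * grad d g e)
        - 2 * ∑ e, w e * (u e * grad d g e) + ∑ e, w e * u e ^ 2 := by
      rw [Finset.mul_sum, ← Finset.sum_sub_distrib, ← Finset.sum_add_distrib]
      exact Finset.sum_congr rfl fun e _ => by ring
    have b3 : 0 ≤ ∑ e, w e * (grad d g e * grad d g e) :=
      Finset.sum_nonneg fun e _ => mul_nonneg (hw e).le (mul_self_nonneg _)
    linarith
  · let A : ℕ → X → ℝ := fun t z => ∑ e, w e * |grad d (ker P π t z) e|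
    let En : ℕ → X → ℝ := fun t z => ent π (ker P π t z)
    have hA : ∀ t z, δ / 2 * A t z ^ 2 ≤ 6 * (En t z - En (t + 1) z) := fun t z => by
      have b1 := abs_grad_sum (d := d) hw hws (hC.ker_nonneg z t) (hC.ker_mean z t)
      have b2 := hC.dissip (hC.ker_nonneg z t) (hC.ker_mean z t)
      have b3 : ∑ x, π x * ∑ y, P x y * (√(ker P π t z x) - √(ker P π t z y)) ^ 2
          = δ * ∑ e, w e * (grad d (fun x => √(ker P π t z x)) e) ^ 2 := by
        rw [Fintype.sum_prod_type, Finset.mul_sum]
        refine Finset.sum_congr rfl fun x _ => ?_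
        rw [Finset.mul_sum, Finset.mul_sum]
        refine Finset.sum_congr rfl fun y _ => ?_
        by_cases hxy : x = y
        · simp [hxy, grad]
        · have := (hπ x).ne'
          simp only [P, hxy, if_false, zero_add, a, grad]
          field_simp
      rw [b3, ← ker_succ] at b2
      have b4 := mul_le_mul_of_nonneg_left b1 hδ.le
      simp only [A, En]; linarith
    have hEn : ∀ t z, 0 ≤ En t z := fun t z => hC.ent_nonneg (hC.ker_nonneg z t) (hC.ker_mean z t)
    have hterm : ∀ t₁ t₂, ∑ e, w e * ∑ e', |grad d ((act P)^[t₁ + t₂] (H e')) e|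
        ≤ ∑ z, π z * (δ / 4 * (A t₁ z ^ 2 + A t₂ z ^ 2)) := fun t₁ t₂ => by
      have b1 : ∀ e', (act P)^[t₁ + t₂] (H e') = fun x =>
          ∑ z, (π z * (δ / 2 * (w e' * grad d (ker P π t₂ z) e'))) * ker P π t₁ z x := by
        intro e'
        funext x
        rw [Function.iterate_add_apply, hC.iter_eq]
        refine Finset.sum_congr rfl fun z _ => ?_
        rw [hC.iter_eq, hH, hC.ker_symm]; ring
      simp only [b1, grad_sum]
      calc _ ≤ ∑ e, w e * ∑ e', ∑ z, π z * (δ / 2 * (w e' * |grad d (ker P π t₂ z) e'|))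
              * |grad d (ker P π t₁ z) e| := by
            refine Finset.sum_le_sum fun e _ => mul_le_mul_of_nonneg_left
              (Finset.sum_le_sum fun e' _ => (Finset.abs_sum_le_sum_abs _ _).trans (le_of_eq
                (Finset.sum_congr rfl fun z _ => ?_))) (hw e).le
            simp only [abs_mul, abs_of_pos (hπ z), abs_of_pos (hw e'),
              abs_of_pos (half_pos hδ)]
        _ = ∑ z, π z * (δ / 2 * (A t₁ z * A t₂ z)) := by
            have c1 : ∀ z, π z * (δ / 2 * (A t₁ z * A t₂ z)) = ∑ e, ∑ e', w e *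
                (π z * (δ / 2 * (w e' * |grad d (ker P π t₂ z) e'|))
                  * |grad d (ker P π t₁ z) e|) := fun z => by
              simp only [A]
              rw [Finset.sum_mul_sum, Finset.mul_sum, Finset.mul_sum]
              refine Finset.sum_congr rfl fun e _ => ?_
              rw [Finset.mul_sum, Finset.mul_sum]
              exact Finset.sum_congr rfl fun e' _ => by ring
            simp only [c1]
            rw [Finset.sum_comm (s := (Finset.univ : Finset X))]
            refine Finset.sum_congr rfl fun e _ => ?_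
            rw [Finset.sum_comm (s := (Finset.univ : Finset X)), Finset.mul_sum]
            exact Finset.sum_congr rfl fun e' _ => Finset.mul_sum _ _ _
        _ ≤ _ := Finset.sum_le_sum fun z _ => mul_le_mul_of_nonneg_left
            (by nlinarith [mul_nonneg hδ.le (sq_nonneg (A t₁ z - A t₂ z))]) (hπ z).le
    let R : ℕ → ℝ := fun t => ∑ e, w e * ∑ e', |grad d ((act P)^[t] (Pot e')) e|
    have hR : ∀ t, R t ≤ R (t + 1) + ∑ e, w e * ∑ e', |grad d ((act P)^[t] (H e')) e| := fun t => by
      simp only [R]
      rw [← Finset.sum_add_distrib]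
      refine Finset.sum_le_sum fun e _ => ?_
      rw [← mul_add, ← Finset.sum_add_distrib]
      refine mul_le_mul_of_nonneg_left (Finset.sum_le_sum fun e' _ => ?_) (hw e).le
      have b1 : (act P)^[t] (Pot e') = (act P)^[t] (H e') + (act P)^[t + 1] (Pot e') := by
        conv_lhs => rw [hPot e', act_iter_add]
        rfl
      have b2 : grad d ((act P)^[t] (Pot e')) e
          = grad d ((act P)^[t + 1] (Pot e')) e + grad d ((act P)^[t] (H e')) e := by
        rw [b1]; simp only [grad, Pi.add_apply]; ring
      rw [b2]; exact abs_add_le _ _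
    have hk : ∀ k, R 0 + ∑ z, π z * (9 * En k z + 3 * En (k + 1) z)
        ≤ R (k + k) + ∑ z, π z * (9 * En 0 z + 3 * En 1 z) := by
      intro k
      induction k with
      | zero => simp
      | succ k ih =>
        have b1 := hR (k + k)
        have b2 := hR (k + (k + 1))
        have b3 := hterm k k
        have b4 := hterm k (k + 1)
        have b5 : ∑ z, π z * (9 * En (k + 1) z + 3 * En (k + 1 + 1) z)
            + (∑ z, π z * (δ / 4 * (A k z ^ 2 + A k z ^ 2))
              + ∑ z, π z * (δ / 4 * (A k z ^ 2 + A (k + 1) z ^ 2)))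
            ≤ ∑ z, π z * (9 * En k z + 3 * En (k + 1) z) := by
          rw [← Finset.sum_add_distrib, ← Finset.sum_add_distrib]
          refine Finset.sum_le_sum fun z _ => ?_
          rw [← mul_add, ← mul_add]
          refine mul_le_mul_of_nonneg_left ?_ (hπ z).le
          linarith [hA k z, hA (k + 1) z]
        rw [show k + 1 + (k + 1) = k + (k + 1) + 1 by ring]
        rw [show k + k + 1 = k + (k + 1) by ring] at b1
        linarith
    have hlim : Filter.Tendsto R Filter.atTop (nhds 0) := by
      have : Filter.Tendsto R Filter.atTop (nhds (∑ e, w e * ∑ _e' : X × X, |0 / d e.1 e.2|)) :=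
        tendsto_finsetSum _ fun e _ => (tendsto_finsetSum _ fun e' _ =>
          ((hC.tendsto (Pot e') e.1 e.2).div_const _).abs).const_mul _
      simpa using this
    have hlim2 : Filter.Tendsto (fun k => R (k + k) + 12 * Real.log (Fintype.card X)) Filter.atTop
        (nhds (0 + 12 * Real.log (Fintype.card X))) :=
      (hlim.comp (Filter.tendsto_atTop_mono (fun k => Nat.le_add_right k k)
        Filter.tendsto_id)).add_const _
    rw [zero_add] at hlim2
    refine ge_of_tendsto' hlim2 fun k => ?_
    have b1 := hk k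
    have b2 : 0 ≤ ∑ z, π z * (9 * En k z + 3 * En (k + 1) z) := Finset.sum_nonneg fun z _ =>
      mul_nonneg (hπ z).le (by linarith [hEn k z, hEn (k + 1) z])
    have b3 : ∑ z, π z * (9 * En 0 z + 3 * En 1 z) ≤ 12 * ∑ z, π z * En 0 z := by
      rw [Finset.mul_sum]
      refine Finset.sum_le_sum fun z _ => ?_
      have b4 := hA 0 z
      have b5 : 0 ≤ δ / 2 * A 0 z ^ 2 := by positivity
      rw [mul_left_comm]
      exact mul_le_mul_of_nonneg_left (by norm_num at b4; linarith) (hπ z).le
    have b4 := hC.ent_zero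
    change R 0 ≤ _
    simp only [En] at b3 b1 b2
    linarith

end Vale.Agent.P249
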