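import Mathlib

/-! A commutator estimate by the three lines theorem. -/

open Finset

namespace Vale.Agent.P249

noncomputable def nrm {ι : Type*} [Fintype ι] (μ : ι → ℝ) (p : ℝ) (f : ι → ℝ) : ℝ :=
  (∑ i, μ i * |f i| ^ p) ^ (1 / p)

def Bdd (l u : ℝ) (f : ℂ → ℂ) : Prop := ∃ C, ∀ z : ℂ, z.re ∈ Set.Icc l u → ‖f z‖ ≤ C

lemma Bdd.const {l u : ℝ} (c : ℂ) : Bdd l u fun _ => c := ⟨‖c‖, fun _ _ => le_rfl⟩

lemma Bdd.mul {l u : ℝ} {f g : ℂ → ℂ} (hf : Bdd l u f) (hg : Bdd l u g) :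
    Bdd l u fun z => f z * g z := by
  obtain ⟨C, hC⟩ := hf
  obtain ⟨D, hD⟩ := hg
  exact ⟨C * D, fun z hz => by
    rw [norm_mul]
    exact mul_le_mul (hC z hz) (hD z hz) (norm_nonneg _) ((norm_nonneg _).trans (hC z hz))⟩

lemma Bdd.sum {l u : ℝ} {ι : Type*} (s : Finset ι) {f : ι → ℂ → ℂ} (hf : ∀ i, Bdd l u (f i)) :
    Bdd l u fun z => ∑ i ∈ s, f i z := by
  choose C hC using hf
  exact ⟨∑ i ∈ s, C i, fun z hz =>
    (norm_sum_le _ _).trans (Finset.sum_le_sum fun i _ => hC i z hz)⟩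

lemma Bdd.exp {l u : ℝ} (a b : ℝ) : Bdd l u fun z => Complex.exp ((a + z) * b) :=
  ⟨Real.exp ((|a| + |l| + |u|) * |b|), fun z hz => by
    rw [Complex.norm_exp]
    refine Real.exp_le_exp.2 ?_
    simp only [Complex.mul_re, Complex.add_re, Complex.ofReal_re, Complex.add_im,
      Complex.ofReal_im, mul_zero, sub_zero]
    refine (le_abs_self _).trans ?_
    rw [abs_mul]
    refine mul_le_mul_of_nonneg_right ((abs_add_le _ _).trans ?_) (abs_nonneg _)
    have : |z.re| ≤ |l| + |u| := abs_le.2 ⟨by linarith [hz.1, neg_abs_le l, abs_nonneg u],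
      by linarith [hz.2, le_abs_self u, abs_nonneg l]⟩
    linarith⟩

lemma geo_le {r : ℝ} (h0 : 0 ≤ r) (h1 : r < 1) (s : Finset ℕ) (f : ℕ → ℕ)
    (hf : Set.InjOn f s) : ∑ y ∈ s, r ^ f y ≤ (1 - r)⁻¹ := by
  rw [← Finset.sum_image (f := fun i => r ^ i) hf, ← tsum_geometric_of_lt_one h0 h1]
  exact (summable_geometric_of_lt_one h0 h1).sum_le_tsum _ fun i _ => pow_nonneg h0 i

section
variable {E I : Type} [Fintype E] [Fintype I] {w : E → ℝ} {μ : I → ℝ} {M : E → E → ℝ} {N : ℝ}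

noncomputable def pairing (w : E → ℝ) (μ : I → ℝ) (M : E → E → ℝ) (V H : E → I → ℂ) : ℂ :=
  ∑ e, ∑ i, (w e : ℂ) * ((μ i : ℂ) * ((∑ e', V e' i * (M e' e : ℂ) - V e i) * H e i))

lemma pairing_one (hw : ∀ e, 0 ≤ w e) (hw1 : ∑ e, w e = 1) (hμ : ∀ i, 0 ≤ μ i)
    (hN : ∑ e, w e * ∑ e', |M e' e| ≤ N) (V H : E → I → ℂ) {c : ℝ} (hc0 : 0 ≤ c)
    (hc : ∀ e e', ∑ i, μ i * (‖V e' i‖ * ‖H e i‖) ≤ c) : ‖pairing w μ M V H‖ ≤ (N + 1) * c := by
  have key : ∀ e, ‖∑ i, (w e : ℂ) * ((μ i : ℂ) * ((∑ e', V e' i * (M e' e : ℂ) - V e i) * H e i))‖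
      ≤ w e * ((∑ e', |M e' e|) * c + c) := fun e => by
    rw [← Finset.mul_sum, norm_mul, Complex.norm_real, Real.norm_of_nonneg (hw e)]
    refine mul_le_mul_of_nonneg_left ((norm_sum_le _ _).trans ?_) (hw e)
    calc _ ≤ ∑ i, (∑ e', |M e' e| * (μ i * (‖V e' i‖ * ‖H e i‖)) + μ i * (‖V e i‖ * ‖H e i‖)) := by
          refine Finset.sum_le_sum fun i _ => ?_
          rw [norm_mul, norm_mul, Complex.norm_real, Real.norm_of_nonneg (hμ i)]
          have a1 : ‖∑ e', V e' i * (M e' e : ℂ) - V e i‖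
              ≤ ∑ e', ‖V e' i‖ * |M e' e| + ‖V e i‖ :=
            (norm_sub_le _ _).trans (add_le_add_left ((norm_sum_le _ _).trans (le_of_eq
              (Finset.sum_congr rfl fun e' _ => by simp))) _)
          refine (mul_le_mul_of_nonneg_left (mul_le_mul_of_nonneg_right a1 (norm_nonneg _))
            (hμ i)).trans (le_of_eq ?_)
          rw [add_mul, mul_add, Finset.sum_mul, Finset.mul_sum]
          congr 1
          exact Finset.sum_congr rfl fun e' _ => by ring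
      _ ≤ _ := by
          rw [Finset.sum_add_distrib, Finset.sum_comm, Finset.sum_mul]
          refine add_le_add (Finset.sum_le_sum fun e' _ => ?_) (hc e e)
          rw [← Finset.mul_sum]
          exact mul_le_mul_of_nonneg_left (hc e e') (abs_nonneg _)
  refine (norm_sum_le _ _).trans ((Finset.sum_le_sum fun e _ => key e).trans ?_)
  simp only [mul_add, Finset.sum_add_distrib, ← mul_assoc, ← Finset.sum_mul, hw1]
  nlinarith

lemma pairing_two (hw : ∀ e, 0 ≤ w e) (hw1 : ∑ e, w e = 1) (hμ : ∀ i, 0 ≤ μ i)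
    (h2 : ∀ v : E → ℝ, ∑ e, w e * (∑ e', v e' * M e' e - v e) ^ 2 ≤ ∑ e, w e * v e ^ 2)
    (V H : E → I → ℂ) {a : ℝ} (ha : 0 < a) (hV : ∀ e, ∑ i, μ i * ‖V e i‖ ^ 2 ≤ a ^ 2)
    (hH : ∀ e, ∑ i, μ i * ‖H e i‖ ^ 2 ≤ 1) : ‖pairing w μ M V H‖ ≤ a := by
  have hc : ∀ i, ∑ e, w e * ‖∑ e', V e' i * (M e' e : ℂ) - V e i‖ ^ 2 ≤ ∑ e, w e * ‖V e i‖ ^ 2 := by
    intro i
    have a1 := h2 fun e => (V e i).re
    have a2 := h2 fun e => (V e i).im
    simp only [Complex.sq_norm, Complex.normSq_apply, Complex.sub_re, Complex.sub_im,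
      Complex.re_sum, Complex.im_sum, Complex.mul_re, Complex.mul_im, Complex.ofReal_re,
      Complex.ofReal_im, mul_zero, sub_zero, zero_add, mul_add, Finset.sum_add_distrib, ← sq]
    exact add_le_add a1 a2
  have b1 : ∑ e, ∑ i, w e * (μ i * ‖∑ e', V e' i * (M e' e : ℂ) - V e i‖ ^ 2) ≤ a ^ 2 := by
    rw [Finset.sum_comm]
    calc _ ≤ ∑ i, μ i * ∑ e, w e * ‖V e i‖ ^ 2 := Finset.sum_le_sum fun i _ => by
          refine le_trans (le_of_eq ?_) (mul_le_mul_of_nonneg_left (hc i) (hμ i))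
          rw [Finset.mul_sum]
          exact Finset.sum_congr rfl fun e _ => by ring
      _ = ∑ e, w e * ∑ i, μ i * ‖V e i‖ ^ 2 := by
          simp only [Finset.mul_sum]
          rw [Finset.sum_comm]
          exact Finset.sum_congr rfl fun e _ => Finset.sum_congr rfl fun i _ => by ring
      _ ≤ ∑ e, w e * a ^ 2 := Finset.sum_le_sum fun e _ => mul_le_mul_of_nonneg_left (hV e) (hw e)
      _ = a ^ 2 := by rw [← Finset.sum_mul, hw1, one_mul]
  have b2 : ∑ e, ∑ i, w e * (μ i * ‖H e i‖ ^ 2) ≤ 1 := by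
    simp only [← Finset.mul_sum]
    rw [← hw1]
    exact Finset.sum_le_sum fun e _ => mul_le_of_le_one_right (hw e) (hH e)
  calc _ ≤ ∑ e, ∑ i, (1 / (2 * a) * (w e * (μ i * ‖∑ e', V e' i * (M e' e : ℂ) - V e i‖ ^ 2))
        + a / 2 * (w e * (μ i * ‖H e i‖ ^ 2))) := by
        refine (norm_sum_le _ _).trans (Finset.sum_le_sum fun e _ =>
          (norm_sum_le _ _).trans (Finset.sum_le_sum fun i _ => ?_))
        rw [norm_mul, norm_mul, norm_mul, Complex.norm_real, Complex.norm_real,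
          Real.norm_of_nonneg (hw e), Real.norm_of_nonneg (hμ i)]
        generalize ‖∑ e', V e' i * (M e' e : ℂ) - V e i‖ = x
        generalize ‖H e i‖ = y
        have c1 : x * y ≤ 1 / (2 * a) * x ^ 2 + a / 2 * y ^ 2 := by
          have : 1 / (2 * a) * x ^ 2 + a / 2 * y ^ 2 - x * y = (x - a * y) ^ 2 / (2 * a) := by
            field_simp; ring
          have : 0 ≤ (x - a * y) ^ 2 / (2 * a) := by positivity
          linarith
        have := mul_le_mul_of_nonneg_left c1 (mul_nonneg (hw e) (hμ i))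
        linarith
    _ ≤ 1 / (2 * a) * a ^ 2 + a / 2 * 1 := by
        simp only [Finset.sum_add_distrib, ← Finset.mul_sum] at b1 b2 ⊢
        exact add_le_add (mul_le_mul_of_nonneg_left b1 (by positivity))
          (mul_le_mul_of_nonneg_left b2 (by positivity))
    _ = a := by field_simp; ring

end

section
variable {E Ω S : Type} [Fintype E] [Fintype Ω] [Fintype S]

/-- the data of the commutator estimate -/
structure Dat (p N J : ℝ) (w : E → ℝ) (π : Ω → ℝ) (M : E → E → ℝ) (u : E → Ω → ℝ)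
    (t : E → Ω → ℕ) (β : S → ℕ → ℝ) : Prop where
  hw : ∀ e, 0 ≤ w e
  hw1 : ∑ e, w e = 1
  hπ : ∀ ω, 0 ≤ π ω
  hπ1 : ∑ ω, π ω = 1
  two : ∀ v : E → ℝ, ∑ e, w e * (∑ e', v e' * M e' e - v e) ^ 2 ≤ ∑ e, w e * v e ^ 2
  one : ∑ e, w e * ∑ e', |M e' e| ≤ N
  exact : ∀ ω e, ∑ e', u e' ω * M e' e = u e ω
  mom : ∀ e, ∑ ω, π ω * |u e ω| ^ p ≤ 1
  lo : ∀ e ω, |u e ω| ≤ Real.exp (t e ω)
  hi : ∀ e ω, Real.exp (t e ω) ≤ Real.exp 1 * max |u e ω| 1
  sup : ∀ s y, |β s y| ≤ 1 / J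
  sum : ∀ y, ∑ s, |β s y| ≤ 4

noncomputable def cut (M : E → E → ℝ) (u : E → Ω → ℝ) (t : E → Ω → ℕ) (y : ℕ) (e : E) (ω : Ω) :
    ℝ := ∑ e', (if y < t e' ω then u e' ω else 0) * M e' e - if y < t e ω then u e ω else 0

variable {p N J : ℝ} {w : E → ℝ} {π : Ω → ℝ} {M : E → E → ℝ} {u : E → Ω → ℝ}
  {t : E → Ω → ℕ} {β : S → ℕ → ℝ}

lemma Dat.mom2 (h : Dat p N J w π M u t β) (e : E) :
    ∑ ω, π ω * (max |u e ω| 1) ^ p ≤ 2 := by
  have : ∀ ω, π ω * (max |u e ω| 1) ^ p ≤ π ω * |u e ω| ^ p + π ω := fun ω => by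
    have a1 : 0 ≤ |u e ω| ^ p := by positivity
    have a2 : (max |u e ω| 1) ^ p ≤ |u e ω| ^ p + 1 := by
      rcases le_total |u e ω| 1 with h1 | h1
      · rw [max_eq_right h1, Real.one_rpow]; linarith
      · rw [max_eq_left h1]; linarith
    nlinarith [h.hπ ω]
  refine (Finset.sum_le_sum fun ω _ => this ω).trans ?_
  rw [Finset.sum_add_distrib, h.hπ1]
  linarith [h.mom e]

lemma Dat.line (h : Dat p N J w π M u t β) (hJ : 0 < J) (Λ : ℕ) (z : ℂ) (h0 : z.re ≠ 0) :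
    ∃ (V : E → Ω × S → ℂ) (γ : E → Ω × S → ℝ),
      (∀ e i, ∑ y ∈ range Λ, (β i.2 y : ℂ) * Complex.exp ((((0 : ℝ) : ℂ) + z) * (y : ℝ))
        * (cut M u t y e i.1 : ℝ) = ∑ e', V e' i * (M e' e : ℂ) - V e i) ∧
      (∀ e i, ‖V e i‖ ≤ Real.exp |z.re| * (max |u e i.1| 1) ^ (1 + z.re) * γ e i) ∧
      (∀ e i, 0 ≤ γ e i) ∧ (∀ e i, γ e i ≤ (1 - Real.exp (-|z.re|))⁻¹ / J) ∧
      ∀ e ω, ∑ s, γ e (ω, s) ≤ 4 * (1 - Real.exp (-|z.re|))⁻¹ := by
  have hr0 : 0 ≤ Real.exp (-|z.re|) := (Real.exp_pos _).le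
  have hr1 : Real.exp (-|z.re|) < 1 := Real.exp_lt_one_iff.2 (by simpa using h0)
  suffices ∃ (V : E → Ω × S → ℂ) (κ : E → Ω → ℕ → ℝ),
      (∀ e i, ∑ y ∈ range Λ, (β i.2 y : ℂ) * Complex.exp ((((0 : ℝ) : ℂ) + z) * (y : ℝ))
        * (cut M u t y e i.1 : ℝ) = ∑ e', V e' i * (M e' e : ℂ) - V e i) ∧
      (∀ e i, ‖V e i‖ ≤ Real.exp |z.re| * (max |u e i.1| 1) ^ (1 + z.re)
        * ∑ y ∈ range Λ, κ e i.1 y * |β i.2 y|) ∧ (∀ e ω y, 0 ≤ κ e ω y) ∧
      ∀ e ω, ∑ y ∈ range Λ, κ e ω y ≤ (1 - Real.exp (-|z.re|))⁻¹ by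
    obtain ⟨V, κ, a1, a2, a3, a4⟩ := this
    refine ⟨V, _, a1, a2, fun e i => Finset.sum_nonneg fun y _ =>
      mul_nonneg (a3 _ _ _) (abs_nonneg _), fun e i => ?_, fun e ω => ?_⟩
    · refine (Finset.sum_le_sum fun y _ =>
        mul_le_mul_of_nonneg_left (h.sup i.2 y) (a3 _ _ _)).trans ?_
      rw [← Finset.sum_mul, mul_one_div]
      exact div_le_div_of_nonneg_right (a4 e i.1) hJ.le
    · rw [Finset.sum_comm]
      simp only [← Finset.mul_sum]
      refine (Finset.sum_le_sum fun y _ =>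
        mul_le_mul_of_nonneg_left (h.sum y) (a3 _ _ _)).trans ?_
      rw [← Finset.sum_mul, mul_comm]
      exact mul_le_mul_of_nonneg_left (a4 e ω) (by norm_num)
  have hnorm : ∀ y : ℕ, ‖Complex.exp ((((0 : ℝ) : ℂ) + z) * (y : ℝ))‖ = Real.exp (z.re * y) :=
    fun y => by rw [Complex.norm_exp]; simp
  have hm : ∀ e ω, (0 : ℝ) < max |u e ω| 1 := fun e ω => lt_max_of_lt_right one_pos
  have lin : ∀ (c : ℕ → ℂ) (v : ℕ → E → ℝ) (e : E),
      ∑ y ∈ range Λ, c y * ((∑ e', v y e' * M e' e - v y e : ℝ) : ℂ)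
      = ∑ e', (∑ y ∈ range Λ, c y * v y e') * (M e' e : ℂ) - ∑ y ∈ range Λ, c y * v y e := by
    intro c v e
    push_cast
    simp only [mul_sub, Finset.sum_sub_distrib, Finset.mul_sum, Finset.sum_mul, mul_assoc]
    rw [Finset.sum_comm]
  rcases lt_or_gt_of_ne h0 with hx | hx
  · refine ⟨fun e i => ∑ y ∈ range Λ, (β i.2 y : ℂ) * Complex.exp ((((0 : ℝ) : ℂ) + z) * (y : ℝ))
        * ((if y < t e i.1 then 0 else -u e i.1 : ℝ) : ℂ),
      fun e ω y => if y < t e ω then 0 else Real.exp (-|z.re|) ^ (y - t e ω), fun e i => ?_,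
      fun e i => ?_, fun e ω y => by positivity, fun e ω => ?_⟩
    · rw [← lin]
      refine Finset.sum_congr rfl fun y _ => ?_
      congr 2
      have e1 : ∀ e, (if y < t e i.1 then 0 else -u e i.1)
          = (if y < t e i.1 then u e i.1 else 0) - u e i.1 := fun e => by split_ifs <;> simp
      simp only [cut, e1, sub_mul, Finset.sum_sub_distrib, h.exact]
      ring
    · rw [Finset.mul_sum]
      refine (norm_sum_le _ _).trans (Finset.sum_le_sum fun y _ => ?_)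
      beta_reduce
      split_ifs with hy
      · simp
      · rw [norm_mul, norm_mul, hnorm, Complex.norm_real, Complex.norm_real, Real.norm_eq_abs,
          Real.norm_eq_abs, abs_neg, ← Real.exp_nat_mul, Nat.cast_sub (not_lt.1 hy),
          abs_of_neg hx]
        have e1 : Real.exp (z.re * y) = Real.exp (t e i.1) ^ z.re
            * Real.exp ((y - t e i.1) * - -z.re) := by
          rw [← Real.exp_mul, ← Real.exp_add]; congr 1; ring
        have e2 : Real.exp (t e i.1) ^ z.re ≤ (max |u e i.1| 1) ^ z.re :=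
          Real.rpow_le_rpow_of_nonpos (hm e i.1)
            (max_le (h.lo e i.1) (Real.one_le_exp (Nat.cast_nonneg _))) hx.le
        have e3 : |u e i.1| * Real.exp (t e i.1) ^ z.re
            ≤ Real.exp (-z.re) * (max |u e i.1| 1) ^ (1 + z.re) := by
          rw [Real.rpow_add (hm e i.1), Real.rpow_one]
          refine le_trans (mul_le_mul (le_max_left _ 1) e2 (by positivity) (hm e i.1).le) ?_
          exact le_mul_of_one_le_left (by have := hm e i.1; positivity)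
            (Real.one_le_exp (by linarith))
        rw [e1]
        have := mul_le_mul_of_nonneg_right e3
          (by positivity : 0 ≤ Real.exp ((y - t e i.1) * - -z.re) * |β i.2 y|)
        linarith
    · rw [Finset.sum_ite, Finset.sum_const_zero, zero_add]
      refine geo_le hr0 hr1 _ _ fun a ha b hb hab => ?_
      simp only [coe_filter, Set.mem_ofPred_eq] at ha hb hab
      omega
  · refine ⟨fun e i => ∑ y ∈ range Λ, (β i.2 y : ℂ) * Complex.exp ((((0 : ℝ) : ℂ) + z) * (y : ℝ))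
        * ((if y < t e i.1 then u e i.1 else 0 : ℝ) : ℂ),
      fun e ω y => if y < t e ω then Real.exp (-|z.re|) ^ (t e ω - y) else 0, fun e i => ?_,
      fun e i => ?_, fun e ω y => by positivity, fun e ω => ?_⟩
    · rw [← lin]; rfl
    · rw [Finset.mul_sum]
      refine (norm_sum_le _ _).trans (Finset.sum_le_sum fun y _ => ?_)
      beta_reduce
      split_ifs with hy
      · rw [norm_mul, norm_mul, hnorm, Complex.norm_real, Complex.norm_real, Real.norm_eq_abs,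
          Real.norm_eq_abs, ← Real.exp_nat_mul, Nat.cast_sub hy.le, abs_of_pos hx]
        have e1 : Real.exp (z.re * y) = Real.exp (t e i.1) ^ z.re
            * Real.exp ((t e i.1 - y) * -z.re) := by
          rw [← Real.exp_mul, ← Real.exp_add]; congr 1; ring
        have e2 : Real.exp (t e i.1) ^ z.re ≤ Real.exp z.re * (max |u e i.1| 1) ^ z.re := by
          refine (Real.rpow_le_rpow (Real.exp_pos _).le (h.hi e i.1) hx.le).trans (le_of_eq ?_)
          rw [Real.mul_rpow (Real.exp_pos _).le (hm e i.1).le, ← Real.exp_mul, one_mul]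
        have e3 : |u e i.1| * Real.exp (t e i.1) ^ z.re
            ≤ Real.exp z.re * (max |u e i.1| 1) ^ (1 + z.re) := by
          rw [Real.rpow_add (hm e i.1), Real.rpow_one]
          refine le_trans (mul_le_mul (le_max_left _ 1) e2 (by positivity) (hm e i.1).le)
            (le_of_eq (by ring))
        rw [e1]
        have := mul_le_mul_of_nonneg_right e3
          (by positivity : 0 ≤ Real.exp ((t e i.1 - y) * -z.re) * |β i.2 y|)
        linarith
      · simp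
    · rw [Finset.sum_ite, Finset.sum_const_zero, add_zero]
      refine geo_le hr0 hr1 _ _ fun a ha b hb hab => ?_
      simp only [coe_filter, Set.mem_ofPred_eq] at ha hb hab
      omega

end

end Vale.Agent.P249
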