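import Mathlib

/-! Reversible lazy Markov kernels on a finite set: entropy dissipation and mixing. -/

open Finset

namespace Vale.Agent.P249

variable {X : Type*} [Fintype X]

def act (P : X → X → ℝ) (g : X → ℝ) (x : X) : ℝ := ∑ y, P x y * g y

structure Chain (P : X → X → ℝ) (π : X → ℝ) : Prop where
  pos : ∀ x y, 0 < P x y
  row : ∀ x, ∑ y, P x y = 1
  rev : ∀ x y, π x * P x y = π y * P y x
  lazy : ∀ x, 1 / 2 ≤ P x x
  πpos : ∀ x, 0 < π x
  πsum : ∑ x, π x = 1

variable {P : X → X → ℝ} {π : X → ℝ}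

lemma Chain.adj (h : Chain P π) (f g : X → ℝ) :
    ∑ x, π x * (f x * act P g x) = ∑ x, π x * (act P f x * g x) := by
  unfold act
  simp only [Finset.mul_sum, Finset.sum_mul]
  rw [Finset.sum_comm]
  refine Finset.sum_congr rfl fun x _ => Finset.sum_congr rfl fun y _ => ?_
  linear_combination (f y * g x) * h.rev y x

lemma Chain.adj_iter (h : Chain P π) (t : ℕ) : ∀ f g : X → ℝ,
    ∑ x, π x * (f x * (act P)^[t] g x) = ∑ x, π x * ((act P)^[t] f x * g x) := by
  induction t with
  | zero => intro f g; rfl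
  | succ t ih =>
    intro f g
    rw [Function.iterate_succ_apply', h.adj, ih, Function.iterate_succ_apply]

lemma Chain.mean (h : Chain P π) (g : X → ℝ) : ∑ x, π x * act P g x = ∑ x, π x * g x := by
  have := h.adj (fun _ => 1) g
  simpa [act, h.row] using this

lemma act_add (f g : X → ℝ) : act P (f + g) = act P f + act P g := by
  funext x; simp [act, mul_add, Finset.sum_add_distrib]

lemma act_iter_add (t : ℕ) : ∀ f g : X → ℝ,
    (act P)^[t] (f + g) = (act P)^[t] f + (act P)^[t] g := by
  induction t with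
  | zero => intro f g; rfl
  | succ t ih => intro f g; simp only [Function.iterate_succ_apply, act_add, ih]

lemma Chain.osc [Nonempty X] (h : Chain P π) : ∃ c : ℝ, 0 ≤ c ∧ c < 1 ∧
    ∀ (g : X → ℝ) (O : ℝ), (∀ x y, g x - g y ≤ O) → ∀ x y, act P g x - act P g y ≤ c * O := by
  classical
  obtain ⟨x₀⟩ := ‹Nonempty X›
  obtain ⟨x₁, -, h1⟩ := Finset.exists_min_image Finset.univ (fun x => P x x₀) ⟨x₀, mem_univ _⟩
  have hle : P x₁ x₀ ≤ 1 := by
    rw [← h.row x₁]
    exact Finset.single_le_sum (fun y _ => (h.pos x₁ y).le) (mem_univ x₀)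
  refine ⟨1 - P x₁ x₀, by linarith, by linarith [h.pos x₁ x₀], fun g O hO x y => ?_⟩
  obtain ⟨a, -, ha⟩ := Finset.exists_max_image Finset.univ g ⟨x₀, mem_univ _⟩
  obtain ⟨b, -, hb⟩ := Finset.exists_min_image Finset.univ g ⟨x₀, mem_univ _⟩
  have e1 : ∑ z, P x z * (g a - g z) = g a - act P g x := by
    simp only [mul_sub, Finset.sum_sub_distrib, ← Finset.sum_mul, h.row, one_mul, act]
  have e2 : ∑ z, P y z * (g z - g b) = act P g y - g b := by
    simp only [mul_sub, Finset.sum_sub_distrib, ← Finset.sum_mul, h.row, one_mul, act]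
  have a1 := Finset.single_le_sum (f := fun z => P x z * (g a - g z))
    (fun z _ => mul_nonneg (h.pos x z).le (sub_nonneg.2 (ha z (mem_univ _)))) (mem_univ x₀)
  have a2 := Finset.single_le_sum (f := fun z => P y z * (g z - g b))
    (fun z _ => mul_nonneg (h.pos y z).le (sub_nonneg.2 (hb z (mem_univ _)))) (mem_univ x₀)
  have a3 := mul_le_mul_of_nonneg_right (h1 x (mem_univ _)) (sub_nonneg.2 (ha x₀ (mem_univ _)))
  have a4 := mul_le_mul_of_nonneg_right (h1 y (mem_univ _)) (sub_nonneg.2 (hb x₀ (mem_univ _)))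
  have a5 := mul_le_mul_of_nonneg_left (hO a b) (by linarith : 0 ≤ 1 - P x₁ x₀)
  nlinarith

lemma Chain.tendsto [Nonempty X] (h : Chain P π) (g : X → ℝ) (x y : X) :
    Filter.Tendsto (fun t => (act P)^[t] g x - (act P)^[t] g y) Filter.atTop (nhds 0) := by
  obtain ⟨c, h0, h1, hc⟩ := h.osc
  obtain ⟨O, hO⟩ := (Set.finite_range fun e : X × X => g e.1 - g e.2).bddAbove
  have key : ∀ t x y, (act P)^[t] g x - (act P)^[t] g y ≤ c ^ t * O := by
    intro t
    induction t with
    | zero => intro x y; simpa using hO ⟨(x, y), rfl⟩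
    | succ t ih =>
      intro x y
      rw [Function.iterate_succ_apply', pow_succ', mul_assoc]
      exact hc _ _ ih x y
  have lim := (tendsto_pow_atTop_nhds_zero_of_lt_one h0 h1).mul_const O
  rw [zero_mul] at lim
  refine squeeze_zero_norm (fun t => ?_) lim
  rw [Real.norm_eq_abs, abs_le]
  exact ⟨by linarith [key t y x], key t x y⟩

lemma Chain.harmonic [Nonempty X] (h : Chain P π) {g : X → ℝ} (hg : act P g = g) (x y : X) :
    g x = g y := by
  have := h.tendsto g x y
  simp only [Function.iterate_fixed hg] at this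
  exact sub_eq_zero.1 (tendsto_nhds_unique tendsto_const_nhds this)

lemma Chain.solve [Nonempty X] (h : Chain P π) (f : X → ℝ) (hf : ∑ x, π x * f x = 0) :
    ∃ g, g = f + act P g := by
  let L : (X → ℝ) →ₗ[ℝ] (X → ℝ) :=
    { toFun := fun g x => g x - act P g x + ∑ z, π z * g z
      map_add' := fun f g => by
        funext x
        simp only [act_add, Pi.add_apply, mul_add, Finset.sum_add_distrib]; ring
      map_smul' := fun c g => by
        funext x
        simp only [act, Pi.smul_apply, smul_eq_mul, RingHom.id_apply, mul_add, mul_sub,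
          Finset.mul_sum, mul_left_comm c] }
  have hm : ∀ g, ∑ x, π x * L g x = ∑ x, π x * g x := fun g => by
    simp only [L, LinearMap.coe_mk, AddHom.coe_mk, mul_add, mul_sub, Finset.sum_add_distrib,
      Finset.sum_sub_distrib, h.mean, ← Finset.sum_mul, h.πsum]
    ring
  have hinj : Function.Injective L := by
    rw [injective_iff_map_eq_zero]
    intro g hg
    have h1 := hm g
    simp only [hg, Pi.zero_apply, mul_zero, Finset.sum_const_zero] at h1
    have h2 : act P g = g := by
      funext x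
      have := congrFun hg x
      simp only [L, LinearMap.coe_mk, AddHom.coe_mk, Pi.zero_apply] at this
      linarith
    funext x
    have h3 : ∑ z, π z * g z = g x := by
      simp only [fun z => h.harmonic h2 z x, ← Finset.sum_mul, h.πsum, one_mul]
    simp only [Pi.zero_apply]; linarith
  obtain ⟨g, hg⟩ := LinearMap.injective_iff_surjective.1 hinj f
  refine ⟨g, funext fun x => ?_⟩
  have h1 := hm g
  have h2 := congrFun hg x
  simp only [L, LinearMap.coe_mk, AddHom.coe_mk] at h2
  rw [hg, hf] at h1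
  simp only [Pi.add_apply]; linarith

noncomputable def ent (π q : X → ℝ) : ℝ := ∑ x, π x * (q x * Real.log (q x))

lemma Chain.ent_nonneg (h : Chain P π) {q : X → ℝ} (hq : ∀ x, 0 ≤ q x)
    (hq1 : ∑ x, π x * q x = 1) : 0 ≤ ent π q := by
  have : ∑ x, π x * (q x - 1) ≤ ent π q := Finset.sum_le_sum fun x _ =>
    mul_le_mul_of_nonneg_left (by
      have := Real.negMulLog_le_one_sub_self (hq x)
      rw [Real.negMulLog] at this
      linarith) (h.πpos x).le
  simp only [mul_sub, Finset.sum_sub_distrib, hq1, mul_one, h.πsum] at this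
  linarith

lemma log_ineq {q m : ℝ} (hq : 0 ≤ q) (hm : 0 < m) :
    2 * q - 2 * (√q * √m) ≤ q * Real.log q - q * Real.log m := by
  rcases hq.eq_or_lt with rfl | hq
  · simp
  have h1 := Real.log_le_sub_one_of_pos (div_pos (Real.sqrt_pos.2 hm) (Real.sqrt_pos.2 hq))
  rw [Real.log_div (Real.sqrt_pos.2 hm).ne' (Real.sqrt_pos.2 hq).ne', Real.log_sqrt hm.le,
    Real.log_sqrt hq.le] at h1
  have h2 := mul_le_mul_of_nonneg_left h1 hq.le
  have h3 : q * (√m / √q) = √q * √m := by
    have := Real.sqrt_pos.2 hq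
    nth_rewrite 1 [← Real.mul_self_sqrt hq.le]
    field_simp
  nlinarith

lemma Chain.dissip (h : Chain P π) {q : X → ℝ} (hq : ∀ x, 0 ≤ q x) (hq1 : ∑ x, π x * q x = 1) :
    ∑ x, π x * ∑ y, P x y * (√(q x) - √(q y)) ^ 2 ≤ 3 * (ent π q - ent π (act P q)) := by
  obtain ⟨y₀, hy₀⟩ : ∃ y, 0 < q y := by
    by_contra hc
    push Not at hc
    simp [fun y => le_antisymm (hc y) (hq y)] at hq1
  have e : ent π q = ∑ x, π x * act P (fun y => q y * Real.log (q y)) x := (h.mean _).symm
  rw [e]
  unfold ent
  rw [← Finset.sum_sub_distrib, Finset.mul_sum]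
  refine Finset.sum_le_sum fun x _ => ?_
  rw [← mul_sub, mul_left_comm]
  refine mul_le_mul_of_nonneg_left ?_ (h.πpos x).le
  set m := act P q x with hm
  set μ := ∑ y, P x y * √(q y) with hμ
  have hm0 : 0 < m := Finset.sum_pos' (fun y _ => mul_nonneg (h.pos x y).le (hq y))
    ⟨y₀, mem_univ _, mul_pos (h.pos x y₀) hy₀⟩
  have a1 : ∑ y, P x y * (2 * q y - 2 * (√(q y) * √m))
      ≤ ∑ y, P x y * (q y * Real.log (q y) - q y * Real.log m) :=
    Finset.sum_le_sum fun y _ => mul_le_mul_of_nonneg_left (log_ineq (hq y) hm0) (h.pos x y).le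
  have a2 : ∑ y, P x y * (2 * q y - 2 * (√(q y) * √m)) = 2 * m - 2 * (μ * √m) := by
    rw [hm, hμ, act, Finset.sum_mul, Finset.mul_sum, Finset.mul_sum, ← Finset.sum_sub_distrib]
    exact Finset.sum_congr rfl fun y _ => by ring
  have a3 : ∑ y, P x y * (q y * Real.log (q y) - q y * Real.log m)
      = act P (fun y => q y * Real.log (q y)) x - m * Real.log m := by
    simp only [mul_sub, Finset.sum_sub_distrib, ← mul_assoc, ← Finset.sum_mul]
    simp only [act, mul_assoc, hm]
  have var : ∀ a : ℝ, ∑ y, P x y * (a - √(q y)) ^ 2 = a ^ 2 - 2 * a * μ + m := fun a => by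
    have : ∀ y, P x y * (a - √(q y)) ^ 2
        = a ^ 2 * P x y - 2 * a * (P x y * √(q y)) + P x y * q y := fun y => by
      have := Real.sq_sqrt (hq y)
      linear_combination P x y * this
    simp only [this, Finset.sum_add_distrib, Finset.sum_sub_distrib, ← Finset.mul_sum, h.row]
    rw [mul_one]; rfl
  have a4 := Finset.single_le_sum (f := fun y => P x y * (μ - √(q y)) ^ 2)
    (fun y _ => mul_nonneg (h.pos x y).le (sq_nonneg _)) (mem_univ x)
  simp only [var] at a4 ⊢
  have a5 := mul_le_mul_of_nonneg_right (h.lazy x) (sq_nonneg (μ - √(q x)))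
  have a6 := sq_nonneg (√m - μ)
  have a7 := Real.sq_sqrt hm0.le
  nlinarith

variable [DecidableEq X]

noncomputable def ker (P : X → X → ℝ) (π : X → ℝ) (t : ℕ) (z : X) : X → ℝ :=
  (act P)^[t] (Pi.single z (1 / π z))

lemma Chain.iter_eq (h : Chain P π) (t : ℕ) (g : X → ℝ) (z : X) :
    (act P)^[t] g z = ∑ x, π x * (ker P π t z x * g x) := by
  rw [ker, ← h.adj_iter, Finset.sum_eq_single z]
  · have := (h.πpos z).ne'
    simp only [Pi.single_eq_same]; field_simp
  · intro x _ hx; simp [hx]
  · simp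

lemma Chain.ker_symm (h : Chain P π) (t : ℕ) (x z : X) : ker P π t z x = ker P π t x z := by
  rw [ker, h.iter_eq, Finset.sum_eq_single z]
  · have := (h.πpos z).ne'
    simp only [Pi.single_eq_same]; field_simp
  · intro x _ hx; simp [hx]
  · simp

lemma ker_succ (t : ℕ) (z : X) : ker P π (t + 1) z = act P (ker P π t z) :=
  Function.iterate_succ_apply' _ _ _

lemma Chain.ker_nonneg (h : Chain P π) (z : X) : ∀ t x, 0 ≤ ker P π t z x
  | 0, x => by
      by_cases hx : x = z
      · subst hx; simpa [ker] using (h.πpos x).le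
      · simp [ker, hx]
  | t + 1, x => by
      rw [ker_succ]
      exact Finset.sum_nonneg fun y _ => mul_nonneg (h.pos x y).le (h.ker_nonneg z t y)

lemma Chain.ker_mean (h : Chain P π) (z : X) : ∀ t, ∑ x, π x * ker P π t z x = 1
  | 0 => by
      rw [Finset.sum_eq_single z]
      · have := (h.πpos z).ne'
        simp only [ker, Function.iterate_zero, id, Pi.single_eq_same]; field_simp
      · intro x _ hx; simp [ker, hx]
      · simp
  | t + 1 => by rw [ker_succ, h.mean, h.ker_mean z t]

lemma Chain.ent_zero (h : Chain P π) [Nonempty X] :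
    ∑ z, π z * ent π (ker P π 0 z) ≤ Real.log (Fintype.card X) := by
  have hn : (0 : ℝ) < Fintype.card X := by exact_mod_cast Fintype.card_pos
  have e : ∀ z, π z * ent π (ker P π 0 z)
      ≤ π z * Real.log (Fintype.card X) + (1 / Fintype.card X - π z) := fun z => by
    have h0 := h.πpos z
    have e1 : ent π (ker P π 0 z) = -Real.log (π z) := by
      unfold ent
      rw [Finset.sum_eq_single z]
      · simp only [ker, Function.iterate_zero, id, Pi.single_eq_same, one_div, Real.log_inv]
        field_simp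
      · intro x _ hx; simp [ker, hx]
      · simp
    have e2 := Real.log_le_sub_one_of_pos (x := 1 / (Fintype.card X * π z)) (by positivity)
    rw [one_div, Real.log_inv, Real.log_mul hn.ne' h0.ne'] at e2
    have e3 := mul_le_mul_of_nonneg_left e2 h0.le
    have e4 : π z * ((Fintype.card X * π z)⁻¹ - 1) = 1 / Fintype.card X - π z := by field_simp
    rw [e1]; nlinarith
  refine (Finset.sum_le_sum fun z _ => e z).trans (le_of_eq ?_)
  rw [Finset.sum_add_distrib, Finset.sum_sub_distrib, ← Finset.sum_mul, h.πsum, Finset.sum_const,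
    Finset.card_univ, nsmul_eq_mul]
  field_simp
  ring

end Vale.Agent.P249
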