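import Mathlib

/-! Sums of independent sparse variables and sampling. -/

open Finset

namespace Vale.Agent.P249

lemma mean_value {p x y : ℝ} (hp : 1 ≤ p) (hy : 0 ≤ y) (hxy : y ≤ x) :
    x ^ p - y ^ p ≤ p * x ^ (p - 1) * (x - y) := by
  rcases (hy.trans hxy).eq_or_lt with h | h
  · have : y = 0 := by linarith
    simp [← h, this]
  · have h1 := one_add_mul_self_le_rpow_one_add (s := y / x - 1)
      (by have := div_nonneg hy h.le; linarith) hp
    rw [add_sub_cancel, Real.div_rpow hy h.le, le_div_iff₀ (Real.rpow_pos_of_pos h p)] at h1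
    rw [Real.rpow_sub_one h.ne']
    refine le_trans (by linarith : _ ≤ x ^ p - (1 + p * (y / x - 1)) * x ^ p) (le_of_eq ?_)
    field_simp
    ring

lemma pw_half {p : ℝ} (hp : 1 ≤ p) {a u τ : ℝ} (hτ : 0 < τ) (h : |u| ≤ |a|) :
    abs (|a + u| ^ p - |a| ^ p - |u| ^ p)
      ≤ (p * 2 ^ (p - 1) + 1) * (τ ^ (p - 1) * |u| + |u| * |a| ^ p / τ) := by
  have hp1 : 0 ≤ p - 1 := by linarith
  have hp0 : p ≠ 0 := by linarith
  have ha := abs_nonneg a
  have hu := abs_nonneg u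
  have mono : ∀ x, 0 ≤ x → x ≤ 2 * |a| → x ^ (p - 1) ≤ 2 ^ (p - 1) * |a| ^ (p - 1) :=
    fun x h0 hx => by
      rw [← Real.mul_rpow (by norm_num) ha]; exact Real.rpow_le_rpow h0 hx hp1
  have d1 : abs (|a + u| - |a|) ≤ |u| := by simpa using abs_abs_sub_abs_le_abs_sub (a + u) a
  have a1 : abs (|a + u| ^ p - |a| ^ p) ≤ p * (2 ^ (p - 1) * |a| ^ (p - 1)) * |u| := by
    rcases le_total |a + u| |a| with h1 | h1
    · rw [abs_sub_comm, abs_of_nonneg (sub_nonneg.2 (Real.rpow_le_rpow (abs_nonneg _) h1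
        (by linarith)))]
      refine (mean_value hp (abs_nonneg _) h1).trans (mul_le_mul (mul_le_mul_of_nonneg_left
        (mono _ ha (by linarith)) (by linarith)) (by linarith [(abs_le.1 d1).1]) (by linarith)
        (by positivity))
    · rw [abs_of_nonneg (sub_nonneg.2 (Real.rpow_le_rpow (abs_nonneg _) h1 (by linarith)))]
      refine (mean_value hp (abs_nonneg _) h1).trans (mul_le_mul (mul_le_mul_of_nonneg_left
        (mono _ (abs_nonneg _) (by linarith [(abs_le.1 d1).2])) (by linarith))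
        (by linarith [(abs_le.1 d1).2]) (by linarith) (by positivity))
  have spl : ∀ x : ℝ, 0 ≤ x → x ^ p = x ^ (p - 1) * x := fun x hx => by
    rw [← Real.rpow_add_one' hx (by simpa using hp0)]; simp
  have a2 : |u| ^ p ≤ |a| ^ (p - 1) * |u| := by
    rw [spl _ hu]; exact mul_le_mul_of_nonneg_right (Real.rpow_le_rpow hu h hp1) hu
  have a3 : |a| ^ (p - 1) ≤ τ ^ (p - 1) + |a| ^ p / τ := by
    rcases le_total |a| τ with h1 | h1
    · exact le_add_of_le_of_nonneg (Real.rpow_le_rpow ha h1 hp1) (by positivity)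
    · refine le_add_of_nonneg_of_le (by positivity) ?_
      rw [spl _ ha, le_div_iff₀ hτ]
      exact mul_le_mul_of_nonneg_left h1 (by positivity)
  have a4 : abs (|a + u| ^ p - |a| ^ p - |u| ^ p) ≤ (p * 2 ^ (p - 1) + 1) * (|a| ^ (p - 1) * |u|) := by
    refine (abs_sub _ _).trans ?_
    rw [abs_of_nonneg (by positivity : 0 ≤ |u| ^ p)]
    linarith
  refine a4.trans (mul_le_mul_of_nonneg_left ((mul_le_mul_of_nonneg_right a3 hu).trans
    (le_of_eq (by ring))) (by positivity))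

lemma pw {p : ℝ} (hp : 1 ≤ p) (a u : ℝ) {τ : ℝ} (hτ : 0 < τ) :
    abs (|u + a| ^ p - |a| ^ p - |u| ^ p) ≤ (p * 2 ^ (p - 1) + 1)
      * (τ ^ (p - 1) * |u| + |u| * |a| ^ p / τ + |u| ^ p * |a| / τ) := by
  rcases le_total |u| |a| with h | h
  · rw [add_comm u]
    exact (pw_half hp hτ h).trans (mul_le_mul_of_nonneg_left
      (le_add_of_nonneg_right (by positivity)) (by positivity))
  · rw [sub_right_comm]
    refine (pw_half hp hτ h).trans (mul_le_mul_of_nonneg_left ?_ (by positivity))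
    have := mul_le_mul_of_nonneg_left h (by positivity : 0 ≤ τ ^ (p - 1))
    have : 0 ≤ |u| * |a| ^ p / τ := by positivity
    rw [mul_comm |a|]
    linarith

section
variable {Ω : Type} [Fintype Ω] {π : Ω → ℝ}

noncomputable def Ex (π : Ω → ℝ) (φ : Ω → ℝ) : ℝ := ∑ ω, π ω * φ ω

def Prob (π : Ω → ℝ) : Prop := (∀ ω, 0 ≤ π ω) ∧ ∑ ω, π ω = 1

def pr (π : Ω → ℝ) (m : ℕ) (ξ : Fin m → Ω) : ℝ := ∏ i, π (ξ i)

lemma Prob.pr (h : Prob π) (m : ℕ) : Prob (pr π m) :=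
  ⟨fun ξ => Finset.prod_nonneg fun i _ => h.1 _, by
    simp only [Vale.Agent.P249.pr, ← Fintype.sum_pow, h.2, one_pow]⟩

lemma Ex_mono (h : Prob π) {φ ψ : Ω → ℝ} (hle : ∀ ω, φ ω ≤ ψ ω) : Ex π φ ≤ Ex π ψ :=
  Finset.sum_le_sum fun ω _ => mul_le_mul_of_nonneg_left (hle ω) (h.1 ω)

lemma Ex_const (h : Prob π) (c : ℝ) : Ex π (fun _ => c) = c := by
  rw [Ex, ← Finset.sum_mul, h.2, one_mul]

lemma Ex_add (φ ψ : Ω → ℝ) : Ex π (fun ω => φ ω + ψ ω) = Ex π φ + Ex π ψ := by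
  simp only [Ex, mul_add, Finset.sum_add_distrib]

lemma Ex_sub (φ ψ : Ω → ℝ) : Ex π (fun ω => φ ω - ψ ω) = Ex π φ - Ex π ψ := by
  simp only [Ex, mul_sub, Finset.sum_sub_distrib]

lemma Ex_mul (c : ℝ) (φ : Ω → ℝ) : Ex π (fun ω => c * φ ω) = c * Ex π φ := by
  simp only [Ex, mul_left_comm _ c, Finset.mul_sum]

lemma Ex_mul' (c : ℝ) (φ : Ω → ℝ) : Ex π (fun ω => φ ω * c) = Ex π φ * c := by
  simp only [Ex, ← mul_assoc, Finset.sum_mul]

lemma Ex_div (c : ℝ) (φ : Ω → ℝ) : Ex π (fun ω => φ ω / c) = Ex π φ / c := Ex_mul' _ _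

lemma Ex_sum {ι : Type} [Fintype ι] (φ : ι → Ω → ℝ) :
    Ex π (fun ω => ∑ i, φ i ω) = ∑ i, Ex π (φ i) := by
  simp only [Ex, Finset.mul_sum]
  exact Finset.sum_comm

lemma Ex_nonneg (h : Prob π) {φ : Ω → ℝ} (h0 : ∀ ω, 0 ≤ φ ω) : 0 ≤ Ex π φ :=
  (Ex_const h 0).ge.trans (Ex_mono h h0)

lemma Ex_abs (h : Prob π) {φ ψ : Ω → ℝ} (hle : ∀ ω, |φ ω| ≤ ψ ω) : |Ex π φ| ≤ Ex π ψ :=
  (Finset.abs_sum_le_sum_abs _ _).trans (Finset.sum_le_sum fun ω _ => by
    rw [abs_mul, abs_of_nonneg (h.1 ω)]; exact mul_le_mul_of_nonneg_left (hle ω) (h.1 ω))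

lemma Ex_exists (h : Prob π) (φ : Ω → ℝ) : ∃ ω, φ ω ≤ Ex π φ := by
  have : Nonempty Ω := by
    by_contra hn
    have := not_nonempty_iff.1 hn
    simpa using h.2
  obtain ⟨ω, -, hω⟩ := Finset.exists_min_image univ φ univ_nonempty
  exact ⟨ω, (Ex_const h _).ge.trans (Ex_mono h fun ω' => hω ω' (mem_univ _))⟩

lemma Ex_succ (m : ℕ) (v : Ω → ℝ) (φ : ℝ → ℝ) :
    Ex (pr π (m + 1)) (fun ξ => φ (∑ i, v (ξ i)))
      = Ex π fun ω => Ex (pr π m) fun ξ => φ (v ω + ∑ i, v (ξ i)) := by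
  simp only [Ex, Finset.mul_sum]
  rw [← Fintype.sum_prod_type']
  refine (Fintype.sum_equiv (Fin.consEquiv fun _ => Ω) _ _ fun x => ?_).symm
  simp [pr, Fin.prod_univ_succ, Fin.sum_univ_succ, Fin.consEquiv, mul_assoc]

lemma Ex_exp (m : ℕ) (v : Ω → ℝ) :
    Ex (pr π m) (fun ξ => Real.exp (∑ i, v (ξ i))) = Ex π (fun ω => Real.exp (v ω)) ^ m := by
  simp only [Ex, pr, Real.exp_sum, ← Finset.prod_mul_distrib, Fintype.sum_pow]

lemma exp_le_quad {x : ℝ} (hx : |x| ≤ 1) : Real.exp x ≤ 1 + x + x ^ 2 := by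
  linarith [(abs_le.1 (Real.abs_exp_sub_one_sub_id_le hx)).2]

lemma Ex_first (h : Prob π) (v : Ω → ℝ) (m : ℕ) :
    Ex (pr π m) (fun ξ => |∑ i, v (ξ i)|) ≤ m * Ex π fun ω => |v ω| := by
  induction m with
  | zero => simp [Ex]
  | succ m ih =>
    rw [Ex_succ m v fun x => |x|]
    refine (Ex_mono h fun ω => Ex_mono (h.pr m) fun ξ => abs_add_le _ _).trans ?_
    simp only [Ex_add, Ex_const (h.pr m), Ex_const h]
    push_cast
    linarith

lemma merge (h : Prob π) {p : ℝ} (hp : 1 ≤ p) (v : Ω → ℝ) {B q δ ζ ρ : ℝ} (hB : 0 < B)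
    (hq : 0 ≤ q) (hδ : 0 < δ) (h1 : Ex π (fun ω => |v ω|) ≤ B * q)
    (hζ : (p * 2 ^ (p - 1) + 1) * (δ ^ (p - 1) * (B ^ p * q)) ≤ ζ) (hρ : 4 * ρ ≤ 1) (m : ℕ)
    (hm : (p * 2 ^ (p - 1) + 1) * (m * q / δ) ≤ ρ) :
    abs (Ex (pr π (m + 1)) (fun ξ => |∑ i, v (ξ i)| ^ p) - (m + 1) * Ex π fun ω => |v ω| ^ p)
      ≤ (m + 1) * (2 * ζ + 4 * ρ * Ex π fun ω => |v ω| ^ p) := by
  have hC : 0 < p * 2 ^ (p - 1) + 1 := by positivity
  have hpw := fun a u => pw hp a u (mul_pos hδ hB)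
  generalize p * 2 ^ (p - 1) + 1 = C at hC hpw hζ hm
  have hV : 0 ≤ Ex π fun ω => |v ω| ^ p := Ex_nonneg h fun ω => by positivity
  have hζ0 : 0 ≤ ζ := le_trans (by positivity) hζ
  have step : ∀ m : ℕ, abs (Ex (pr π (m + 1)) (fun ξ => |∑ i, v (ξ i)| ^ p)
      - Ex (pr π m) (fun ξ => |∑ i, v (ξ i)| ^ p) - Ex π fun ω => |v ω| ^ p)
      ≤ ζ + C * (q / δ) * Ex (pr π m) (fun ξ => |∑ i, v (ξ i)| ^ p)
        + C * (m * q / δ) * Ex π fun ω => |v ω| ^ p := fun m => by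
    have := Ex_abs h fun ω => Ex_abs (h.pr m) fun ξ => hpw (∑ i, v (ξ i)) (v ω)
    simp only [Ex_sub, Ex_const h, Ex_const (h.pr m), Ex_mul, Ex_add, Ex_div, Ex_mul'] at this
    rw [Ex_succ m v fun x => |x| ^ p]
    refine this.trans ?_
    have b1 := Ex_first h v m
    have b2 : 0 ≤ Ex (pr π m) fun ξ => |∑ i, v (ξ i)| ^ p :=
      Ex_nonneg (h.pr m) fun ω => by positivity
    generalize Ex (pr π m) (fun ξ => |∑ i, v (ξ i)| ^ p) = H at b2
    generalize Ex π (fun ω => |v ω| ^ p) = V at hV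
    have c1 : (δ * B) ^ (p - 1) * Ex π (fun ω => |v ω|) ≤ δ ^ (p - 1) * (B ^ p * q) := by
      refine (mul_le_mul_of_nonneg_left h1 (by positivity)).trans (le_of_eq ?_)
      rw [Real.mul_rpow hδ.le hB.le, Real.rpow_sub_one hB.ne']
      field_simp
    have c2 : Ex π (fun ω => |v ω|) * H / (δ * B) ≤ q / δ * H :=
      (div_le_div_of_nonneg_right (mul_le_mul_of_nonneg_right h1 b2) (by positivity)).trans
        (le_of_eq (by field_simp))
    have c3 : V * Ex (pr π m) (fun ξ => |∑ i, v (ξ i)|) / (δ * B) ≤ m * q / δ * V :=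
      (div_le_div_of_nonneg_right (mul_le_mul_of_nonneg_left (b1.trans
        (mul_le_mul_of_nonneg_left h1 (Nat.cast_nonneg m))) hV) (by positivity)).trans
        (le_of_eq (by field_simp))
    have := mul_le_mul_of_nonneg_left (add_le_add (add_le_add c1 c2) c3) hC.le
    linarith
  generalize Ex π (fun ω => |v ω| ^ p) = V at hV step
  have hp0 : p ≠ 0 := by linarith
  have key : ∀ m : ℕ, C * (m * q / δ) ≤ ρ → ∀ H, H = Ex (pr π m) (fun ξ => |∑ i, v (ξ i)| ^ p) →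
      abs (H - m * V) ≤ m * (2 * ζ + 4 * ρ * V) →
      abs (Ex (pr π (m + 1)) (fun ξ => |∑ i, v (ξ i)| ^ p) - (m + 1) * V)
        ≤ (m + 1) * (2 * ζ + 4 * ρ * V) := fun m hm H hH ih => by
    have s1 := step m
    rw [← hH] at s1
    have hρ0 : 0 ≤ ρ := le_trans (by positivity) hm
    have s2 : H ≤ m * (2 * V + 2 * ζ) := by
      have := (abs_le.1 ih).2
      have := mul_le_mul_of_nonneg_left (mul_le_mul_of_nonneg_right hρ hV) (Nat.cast_nonneg m)
      linarith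
    have s3 : C * (q / δ) * H ≤ ρ * (2 * V + 2 * ζ) := by
      refine (mul_le_mul_of_nonneg_left s2 (by positivity)).trans (le_trans (le_of_eq (by ring))
        (mul_le_mul_of_nonneg_right hm (by positivity)))
    have s4 := mul_le_mul_of_nonneg_right hm hV
    have s5 := mul_le_mul_of_nonneg_right hρ hζ0
    have s6 := mul_nonneg hρ0 hV
    rw [abs_le] at s1 ih ⊢
    constructor <;> linarith [s1.1, s1.2, ih.1, ih.2]
  induction m with
  | zero => exact key 0 hm _ rfl (by simp [Ex, Real.zero_rpow hp0])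
  | succ m ih =>
    refine key _ hm _ rfl ?_
    push_cast
    refine ih (le_trans (mul_le_mul_of_nonneg_left (div_le_div_of_nonneg_right
      (mul_le_mul_of_nonneg_right (by push_cast; linarith) hq) hδ.le) hC.le) hm)

lemma sample (h : Prob π) {E : Type} [Fintype E] (v : Ω → E → ℝ) {K ζ R : ℝ} (hζ : 0 < ζ)
    (hK : ζ ≤ K) (h0 : ∀ ω e, 0 ≤ v ω e) (h1 : ∀ ω e, v ω e ≤ K)
    (hE : 2 * (Fintype.card E : ℝ) ≤ Real.exp R) (d : ℕ) (hd0 : 0 < d)
    (hd : 4 * K ^ 2 * R ≤ ζ ^ 2 * d) :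
    ∃ ξ : Fin d → Ω, ∀ e, |(∑ k, v (ξ k) e) / d - Ex π fun ω => v ω e| ≤ ζ := by
  have hK0 : 0 < K := hζ.trans_le hK
  have hd1 : (0 : ℝ) < d := by exact_mod_cast hd0
  have mgf : ∀ (e : E) (l : ℝ), |l| = ζ / (2 * K ^ 2) → Ex (pr π d) (fun ξ => Real.exp
      (∑ k, l * (v (ξ k) e - Ex π fun ω => v ω e))) ≤ Real.exp (d * (ζ / (2 * K)) ^ 2) := by
    intro e l hl
    have a0 : 0 ≤ Ex π fun ω => v ω e := Ex_nonneg h fun ω => h0 ω e
    have a1 : Ex π (fun ω => v ω e) ≤ K := (Ex_mono h fun ω => h1 ω e).trans (Ex_const h K).le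
    have a2 : ∀ ω, |l * (v ω e - Ex π fun ω => v ω e)| ≤ ζ / (2 * K) := fun ω => by
      rw [abs_mul, hl]
      refine (mul_le_mul_of_nonneg_left (abs_le.2 ⟨by linarith [h0 ω e], by linarith [h1 ω e]⟩ :
        _ ≤ K) (by positivity)).trans (le_of_eq (by field_simp))
    rw [Ex_exp d fun ω => l * (v ω e - Ex π fun ω => v ω e), Real.exp_nat_mul]
    refine pow_le_pow_left₀ (Ex_nonneg h fun ω => (Real.exp_pos _).le) ?_ d
    refine (Ex_mono h (ψ := fun ω => 1 + l * (v ω e - Ex π fun ω => v ω e) + (ζ / (2 * K)) ^ 2)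
      fun ω => (exp_le_quad ((a2 ω).trans ?_)).trans (add_le_add_right ?_ _)).trans ?_
    · rw [div_le_one (by positivity)]; linarith
    · exact sq_le_sq' (abs_le.1 (a2 ω)).1 (abs_le.1 (a2 ω)).2
    · simp only [Ex_add, Ex_mul, Ex_sub, Ex_const h, sub_self, mul_zero, add_zero]
      linarith [Real.add_one_le_exp ((ζ / (2 * K)) ^ 2)]
  have hl : 0 < ζ / (2 * K ^ 2) := by positivity
  obtain ⟨ξ, hξ⟩ := Ex_exists (h.pr d) fun ξ => ∑ e,
    (Real.exp (∑ k, (ζ / (2 * K ^ 2)) * (v (ξ k) e - Ex π fun ω => v ω e))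
      + Real.exp (∑ k, -(ζ / (2 * K ^ 2)) * (v (ξ k) e - Ex π fun ω => v ω e)))
  refine ⟨ξ, fun e => ?_⟩
  rw [Ex_sum] at hξ
  simp only [Ex_add] at hξ
  have b1 := hξ.trans (Finset.sum_le_sum fun e _ => add_le_add (mgf e _ (abs_of_pos hl))
    (mgf e _ (by rw [abs_neg, abs_of_pos hl])))
  have b2 := (Finset.single_le_sum (f := fun e =>
    (Real.exp (∑ k, (ζ / (2 * K ^ 2)) * (v (ξ k) e - Ex π fun ω => v ω e))
      + Real.exp (∑ k, -(ζ / (2 * K ^ 2)) * (v (ξ k) e - Ex π fun ω => v ω e))))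
    (fun e _ => by positivity) (mem_univ e)).trans b1
  simp only [sum_const, card_univ, nsmul_eq_mul, ← Finset.mul_sum, Finset.sum_sub_distrib,
    Fintype.card_fin] at b2
  have b3 : (Fintype.card E : ℝ) * (Real.exp (d * (ζ / (2 * K)) ^ 2)
      + Real.exp (d * (ζ / (2 * K)) ^ 2)) ≤ Real.exp (ζ / (2 * K ^ 2) * (ζ * d)) := by
    refine le_trans (le_of_eq (by ring)) ((mul_le_mul_of_nonneg_right hE
      (Real.exp_pos (d * (ζ / (2 * K)) ^ 2)).le).trans ?_)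
    rw [← Real.exp_add]
    refine Real.exp_le_exp.2 ?_
    have : R ≤ ζ ^ 2 * d / (4 * K ^ 2) := by rw [le_div_iff₀ (by positivity)]; linarith
    refine (add_le_add_left this _).trans (le_of_eq (by field_simp; ring))
  have b4 := b2.trans b3
  rw [div_sub' hd1.ne', abs_div, abs_of_pos hd1, div_le_iff₀ hd1, abs_le]
  constructor
  · have := Real.exp_le_exp.1 ((le_add_of_nonneg_left (Real.exp_pos _).le).trans b4)
    rw [neg_mul, ← mul_neg] at this
    linarith [le_of_mul_le_mul_left this hl]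
  · have := Real.exp_le_exp.1 ((le_add_of_nonneg_right (Real.exp_pos _).le).trans b4)
    exact le_of_mul_le_mul_left this hl

end

end Vale.Agent.P249
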