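import Vale.Agent.P249.Comm

/-! From averaged to uniform estimates. -/

open Finset

namespace Vale.Agent.P249

lemma minimax {E : Type} [Fintype E] [Nonempty E] {A : Set (E → ℝ)} (hA : Convex ℝ A)
    (hup : ∀ a ∈ A, ∀ b, a ≤ b → b ∈ A) {c c' : ℝ} (hc : c < c')
    (h : ∀ w : E → ℝ, (∀ e, 0 ≤ w e) → ∑ e, w e = 1 → ∃ a ∈ A, ∑ e, w e * a e ≤ c) :
    ∃ a ∈ A, ∀ e, a e < c' := by
  classical
  by_contra hne
  have hB : Convex ℝ (Set.univ.pi fun _ : E => Set.Iio c') := convex_pi fun _ _ => convex_Iio _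
  have hBo : IsOpen (Set.univ.pi fun _ : E => Set.Iio c') :=
    isOpen_set_pi Set.finite_univ fun _ _ => isOpen_Iio
  obtain ⟨f, r, h1, h2⟩ := geometric_hahn_banach_open hB hBo hA
    (Set.disjoint_left.2 fun a ha ha' => hne ⟨a, ha', fun e => ha e trivial⟩)
  set l : E → ℝ := fun e => f fun j => if e = j then 1 else 0 with hl
  have hf : ∀ a, f a = ∑ e, a e * l e := fun a => f.toLinearMap.pi_apply_eq_sum_univ a
  have hn : (0 : ℝ) < Fintype.card E := by exact_mod_cast Fintype.card_pos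
  obtain ⟨a₀, ha₀, -⟩ := h (fun _ => 1 / Fintype.card E) (fun _ => by positivity)
    (by simp [hn.ne'])
  have hl0 : ∀ e, 0 ≤ l e := fun e => by
    by_contra hneg
    have hneg : 0 < -l e := by linarith
    have h3 := h2 a₀ ha₀
    have := h2 _ (hup a₀ ha₀ (a₀ + ((f a₀ - r + 1) / -l e) • fun j => if e = j then 1 else 0)
      (le_add_of_nonneg_right (smul_nonneg (div_nonneg (by linarith) hneg.le) fun j => by
        dsimp only; split_ifs <;> simp)))
    rw [map_add, map_smul, smul_eq_mul] at this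
    change r ≤ f a₀ + (f a₀ - r + 1) / -l e * l e at this
    have e1 : (f a₀ - r + 1) / -l e * l e = -(f a₀ - r + 1) := by
      have : l e ≠ 0 := by linarith
      field_simp
    linarith
  have hc0 := h1 (fun _ => c) fun e _ => hc
  rw [hf, ← Finset.mul_sum] at hc0
  rcases (Finset.sum_nonneg fun e (_ : e ∈ univ) => hl0 e).eq_or_lt with hs | hs
  · have h3 := h2 a₀ ha₀
    have : ∀ e, l e = 0 := fun e =>
      (Finset.sum_eq_zero_iff_of_nonneg fun e _ => hl0 e).1 hs.symm e (mem_univ e)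
    simp only [hf, this, mul_zero, Finset.sum_const_zero] at h3 hc0
    linarith
  · obtain ⟨a, ha, h3⟩ := h (fun e => l e / ∑ e, l e) (fun e => div_nonneg (hl0 e) hs.le)
      (by rw [← Finset.sum_div, div_self hs.ne'])
    have h4 := h2 a ha
    simp only [div_mul_eq_mul_div, ← Finset.sum_div, div_le_iff₀ hs, mul_comm (l _)] at h3
    rw [hf] at h4
    linarith

section
variable {ι : Type*} [Fintype ι] {μ : ι → ℝ} {p : ℝ}

lemma nrm_add (hμ : ∀ i, 0 ≤ μ i) (hp : 1 ≤ p) (f g : ι → ℝ) :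
    nrm μ p (fun i => f i + g i) ≤ nrm μ p f + nrm μ p g := by
  have hp0 : 0 < p := by linarith
  have key : ∀ (i : ι) (x : ℝ), μ i * |x| ^ p = |μ i ^ (1 / p) * x| ^ p := fun i x => by
    have : 0 ≤ μ i ^ (1 / p) := Real.rpow_nonneg (hμ i) _
    rw [abs_mul, abs_of_nonneg this, Real.mul_rpow this (abs_nonneg _), one_div,
      Real.rpow_inv_rpow (hμ i) hp0.ne']
  simp only [nrm, key, mul_add]
  exact Real.Lp_add_le _ _ _ hp

lemma nrm_smul (hμ : ∀ i, 0 ≤ μ i) (hp : 0 < p) (c : ℝ) (f : ι → ℝ) :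
    nrm μ p (fun i => c * f i) = |c| * nrm μ p f := by
  simp only [nrm, abs_mul, Real.mul_rpow (abs_nonneg _) (abs_nonneg _), mul_left_comm (μ _),
    ← Finset.mul_sum]
  rw [Real.mul_rpow (by positivity) (Finset.sum_nonneg fun i _ => mul_nonneg (hμ i)
    (by positivity)), one_div, Real.rpow_rpow_inv (abs_nonneg _) hp.ne']

lemma nrm_sub (hμ : ∀ i, 0 ≤ μ i) (hp : 1 ≤ p) (f g : ι → ℝ) :
    |nrm μ p (fun i => f i + g i) - nrm μ p f| ≤ nrm μ p g := by
  have h1 := nrm_add hμ hp f g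
  have h2 := nrm_add hμ hp (fun i => f i + g i) fun i => -1 * g i
  rw [nrm_smul hμ (by linarith)] at h2
  simp only [neg_mul, one_mul, add_neg_cancel_right, abs_neg, abs_one] at h2
  exact abs_le.2 ⟨by have : nrm μ p f = nrm μ p fun i => f i := rfl; linarith, by linarith⟩

end

/-- every weight on `E` is dominated by one that carries a good projection onto `G` -/
def Flowy {E : Type} [Fintype E] (G : Submodule ℝ (E → ℝ)) (N : ℝ) : Prop :=
  ∀ w : E → ℝ, (∀ e, 0 ≤ w e) → ∑ e, w e = 1 → ∃ (w' : E → ℝ) (M : E → E → ℝ),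
    (∀ e, w e ≤ 4 * w' e) ∧ ∑ e, w' e = 1 ∧ (∀ e, M e ∈ G) ∧
    (∀ g ∈ G, ∀ e, ∑ e', g e' * M e' e = g e) ∧
    (∀ v : E → ℝ, ∑ e, w' e * (∑ e', v e' * M e' e - v e) ^ 2 ≤ ∑ e, w' e * v e ^ 2) ∧
    ∑ e, w' e * ∑ e', |M e' e| ≤ N

theorem uniform {p : ℝ} (hp : 1 < p) (hp2 : p ≠ 2) : ∃ K > 0, ∀ (E Ω S : Type) [Fintype E]
    [Nonempty E] [Fintype Ω] [Fintype S] (G : Submodule ℝ (E → ℝ)) (N J : ℝ) (π : Ω → ℝ)
    (u : E → Ω → ℝ) (t : E → Ω → ℕ) (β : S → ℕ → ℝ) (Λ : ℕ), Flowy G N → 0 < J → 0 ≤ N →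
    (∀ ω, 0 ≤ π ω) → ∑ ω, π ω = 1 → (∀ ω, (fun e => u e ω) ∈ G) →
    (∀ e, ∑ ω, π ω * |u e ω| ^ p ≤ 1) → (∀ e ω, |u e ω| ≤ Real.exp (t e ω)) →
    (∀ e ω, Real.exp (t e ω) ≤ Real.exp 1 * max |u e ω| 1) → (∀ s y, |β s y| ≤ 1 / J) →
    (∀ y, ∑ s, |β s y| ≤ 4) → ∃ M : E → E → ℝ, (∀ e, M e ∈ G) ∧
      (∀ g ∈ G, ∀ e, ∑ e', g e' * M e' e = g e) ∧ (∀ e, ∑ e', |M e' e| ≤ 9 * (N + 1)) ∧
      ∀ e, nrm (fun i : Ω × S => π i.1) p (err M u t β Λ e)
        ≤ K * (N + 1) ^ |1 - 2 / p| * J ^ (1 / p - 1) := by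
  obtain ⟨K, hK, hc⟩ := commutator hp hp2
  refine ⟨9 * K, by positivity, ?_⟩
  intro E Ω S _ _ _ _ G N J π u t β Λ hF hJ hN hπ hπ1 hu mom lo hi sup sum
  have hμ : ∀ i : Ω × S, 0 ≤ π i.1 := fun i => hπ i.1
  have hη : 0 < K * (N + 1) ^ |1 - 2 / p| * J ^ (1 / p - 1) := by positivity
  have hc' := fun w M h => hc E Ω S N J w π M u t β Λ h hJ hN
  generalize hηe : K * (N + 1) ^ |1 - 2 / p| * J ^ (1 / p - 1) = η at hη hc'
  have hN1 : 0 < N + 1 := by linarith
  refine (fun h : ∃ a ∈ {a : E → ℝ | ∃ M : E → E → ℝ, (∀ e, M e ∈ G) ∧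
      (∀ g ∈ G, ∀ e, ∑ e', g e' * M e' e = g e) ∧ ∀ e, nrm (fun i : Ω × S => π i.1) p
      (err M u t β Λ e) / η + (∑ e', |M e' e|) / (N + 1) ≤ a e}, ∀ e, a e < 9 => ?_)
    (minimax (c := 8) ?_ ?_ (by norm_num) ?_)
  · obtain ⟨a, ⟨M, m1, m2, m3⟩, ha⟩ := h
    refine ⟨M, m1, m2, fun e => ?_, fun e => ?_⟩
    · have := div_nonneg (nrm_nonneg hμ p (err M u t β Λ e)) hη.le
      rw [← div_le_iff₀ hN1]
      linarith [m3 e, ha e]
    · have : 0 ≤ (∑ e', |M e' e|) / (N + 1) := by positivity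
      rw [mul_assoc, mul_assoc, ← mul_assoc K, hηe, ← div_le_iff₀ hη]
      linarith [m3 e, ha e]
  · rintro a ⟨M, m1, m2, m3⟩ a' ⟨M', m1', m2', m3'⟩ x y hx hy hxy
    refine ⟨fun e' e => x * M e' e + y * M' e' e, fun e => G.add_mem (G.smul_mem x (m1 e))
      (G.smul_mem y (m1' e)), fun g hg e => ?_, fun e => ?_⟩
    · simp only [mul_add, Finset.sum_add_distrib, mul_left_comm (g _), ← Finset.mul_sum,
        m2 g hg, m2' g hg]
      rw [← add_mul, hxy, one_mul]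
    · have e1 : err (fun e' e => x * M e' e + y * M' e' e) u t β Λ e
          = fun i => x * err M u t β Λ e i + y * err M' u t β Λ e i := by
        funext i
        simp only [err, cut, Finset.mul_sum, ← Finset.sum_add_distrib]
        refine Finset.sum_congr rfl fun k _ => ?_
        simp only [mul_add, Finset.sum_add_distrib, mul_left_comm _ x, mul_left_comm _ y,
          ← Finset.mul_sum]
        have : y = 1 - x := by linarith
        subst this
        ring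
      have e2 := nrm_add hμ hp.le (fun i => x * err M u t β Λ e i) fun i => y * err M' u t β Λ e i
      rw [nrm_smul hμ (by linarith), nrm_smul hμ (by linarith), abs_of_nonneg hx,
        abs_of_nonneg hy] at e2
      have e3 : ∑ e', |x * M e' e + y * M' e' e| ≤ x * ∑ e', |M e' e| + y * ∑ e', |M' e' e| := by
        rw [Finset.mul_sum, Finset.mul_sum, ← Finset.sum_add_distrib]
        refine Finset.sum_le_sum fun e' _ => (abs_add_le _ _).trans (le_of_eq ?_)
        rw [abs_mul, abs_mul, abs_of_nonneg hx, abs_of_nonneg hy]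
      rw [e1]
      refine (add_le_add (div_le_div_of_nonneg_right e2 hη.le)
        (div_le_div_of_nonneg_right e3 hN1.le)).trans ?_
      have := add_le_add (mul_le_mul_of_nonneg_left (m3 e) hx) (mul_le_mul_of_nonneg_left (m3' e) hy)
      simp only [Pi.add_apply, Pi.smul_apply, smul_eq_mul]
      refine le_trans (le_of_eq ?_) this
      ring
  · rintro a ⟨M, m1, m2, m3⟩ b hab
    exact ⟨M, m1, m2, fun e => (m3 e).trans (hab e)⟩
  · intro w hw hw1
    obtain ⟨w', M, b1, b2, b3, b4, b5, b6⟩ := hF w hw hw1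
    have hw' : ∀ e, 0 ≤ w' e := fun e => by linarith [hw e, b1 e]
    refine ⟨_, ⟨M, b3, b4, fun e => le_rfl⟩, ?_⟩
    have c1 := hc' w' M ⟨hw', b2, hπ, hπ1, b5, b6, fun ω => b4 _ (hu ω), mom, lo, hi, sup, sum⟩
    refine (Finset.sum_le_sum fun e _ => mul_le_mul_of_nonneg_right (b1 e) (add_nonneg
      (div_nonneg (nrm_nonneg hμ p _) hη.le) (by positivity))).trans ?_
    simp only [mul_assoc, ← Finset.mul_sum, mul_add, Finset.sum_add_distrib, ← mul_div_assoc,
      ← Finset.sum_div]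
    have c2 := (div_le_one hη).2 c1
    have c3 := (div_le_one hN1).2 (b6.trans (by linarith : N ≤ N + 1))
    simp only [mul_div_assoc]
    linarith

end Vale.Agent.P249
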